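import Mathlib

namespace Vale.Agent.P346
open Matrix Finset

section
variable {m : Type} [Fintype m] [DecidableEq m]

omit [DecidableEq m] in
lemma rank_add_le' {K : Type*} [Field K] (A B : Matrix m m K) :
    (A + B).rank ≤ A.rank + B.rank := by
  unfold Matrix.rank
  rw [Matrix.mulVecLin_add]
  refine le_trans (Submodule.finrank_mono (LinearMap.range_add_le _ _)) ?_
  exact Submodule.finrank_add_le_finrank_add_finrank _ _

lemma rank_smul_le' {K : Type*} [Field K] (c : K) (A : Matrix m m K) :
    (c • A).rank ≤ A.rank := by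
  have : c • A = (c • (1 : Matrix m m K)) * A := by simp
  rw [this]
  exact rank_mul_le_right _ _

lemma rank_map_rat {K : Type*} [Field K] [CharZero K] (M : Matrix m m ℚ) :
    (M.map (algebraMap ℚ K)).rank = M.rank := by
  obtain ⟨V, U, e, hV, hU, h⟩ := exists_rank_normal_form M
  let φ : Matrix m m ℚ →+* Matrix m m K := (algebraMap ℚ K).mapMatrix
  have hV' : IsUnit (φ V).det := (isUnit_iff_isUnit_det _).1 (hV.map φ)
  have hU' : IsUnit (φ U).det := (isUnit_iff_isUnit_det _).1 (hU.map φ)
  have h1 : (φ V * φ M * φ U).rank = (φ M).rank := by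
    rw [rank_mul_eq_left_of_isUnit_det _ _ hU', rank_mul_eq_right_of_isUnit_det _ _ hV']
  have h2 : φ V * φ M * φ U = (fromBlocks (1 : Matrix (Fin M.rank) (Fin M.rank) K) 0 0
      (0 : Matrix (Fin (Fintype.card m - M.rank)) (Fin (Fintype.card m - M.rank)) K)).submatrix
        e e := by
    rw [← map_mul, ← map_mul, h]
    ext i j
    simp only [φ, RingHom.mapMatrix_apply, map_apply, submatrix_apply]
    rcases e i with a | a <;> rcases e j with b | b <;> simp [one_apply, apply_ite]
  change (φ M).rank = M.rank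
  rw [← h1, h2, rank_submatrix, ← diagonal_one, ← diagonal_zero, fromBlocks_diagonal]
  classical
  rw [rank_diagonal, Fintype.card_subtype]
  have : (univ.filter fun i : Fin M.rank ⊕ Fin (Fintype.card m - M.rank) =>
      Sum.elim (fun _ => (1 : K)) (fun _ => (0 : K)) i ≠ 0) = univ.map Function.Embedding.inl := by
    ext i
    rcases i with a | a <;> simp
  rw [this, card_map]
  simp

lemma trace_sq_le_rank (M : Matrix m m ℝ) (hM : M.IsHermitian) :
    M.trace ^ 2 ≤ (M.rank : ℝ) * (M * M).trace := by
  classical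
  have h1 : M.trace = ∑ i, hM.eigenvalues i := by simpa using hM.trace_eq_sum_eigenvalues
  have h2 : (M * M).trace = ∑ i, hM.eigenvalues i ^ 2 := by
    have hs := hM.spectral_theorem
    rw [Unitary.conjStarAlgAut_apply] at hs
    set U : Matrix m m ℝ := (hM.eigenvectorUnitary : Matrix m m ℝ) with hU
    set D : Matrix m m ℝ := diagonal (RCLike.ofReal ∘ hM.eigenvalues) with hD
    have hUU : star U * U = 1 := Unitary.coe_star_mul_self hM.eigenvectorUnitary
    have : M * M = U * (D * D) * star U := by
      conv_lhs => rw [hs]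
      calc U * D * star U * (U * D * star U) = U * D * (star U * U) * D * star U := by
            simp only [Matrix.mul_assoc]
        _ = U * (D * D) * star U := by rw [hUU]; simp only [Matrix.mul_assoc, Matrix.mul_one]
    rw [this, trace_mul_comm, ← Matrix.mul_assoc, hUU, Matrix.one_mul, hD, diagonal_mul_diagonal,
      trace_diagonal]
    simp [sq]
  have h3 : M.rank = (univ.filter fun i => hM.eigenvalues i ≠ 0).card := by
    rw [hM.rank_eq_card_non_zero_eigs, Fintype.card_subtype]
  rw [h1, h2, h3]
  have e1 : ∑ i, hM.eigenvalues i = ∑ i ∈ univ.filter fun i => hM.eigenvalues i ≠ 0,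
      hM.eigenvalues i := by
    rw [sum_filter_ne_zero]
  have e2 : ∑ i ∈ univ.filter (fun i => hM.eigenvalues i ≠ 0), hM.eigenvalues i ^ 2 ≤
      ∑ i, hM.eigenvalues i ^ 2 :=
    sum_le_sum_of_subset_of_nonneg (filter_subset _ _) fun i _ _ => sq_nonneg _
  rw [e1]
  refine le_trans sq_sum_le_card_mul_sum_sq ?_
  exact mul_le_mul_of_nonneg_left e2 (Nat.cast_nonneg _)

lemma frob_sq_le_rank (P : Matrix m m ℝ) :
    (∑ a, ∑ b, P b a ^ 2) ^ 2 ≤ (P.rank : ℝ) * ∑ a, ∑ a', (∑ b, P b a * P b a') ^ 2 := by
  have hM : (Pᵀ * P).IsHermitian := by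
    have := isHermitian_conjTranspose_mul_self P
    rwa [conjTranspose_eq_transpose_of_trivial] at this
  have h := trace_sq_le_rank _ hM
  rw [rank_transpose_mul_self] at h
  have e1 : (Pᵀ * P).trace = ∑ a, ∑ b, P b a ^ 2 := by
    simp [trace, mul_apply, sq]
  have e2 : (Pᵀ * P * (Pᵀ * P)).trace = ∑ a, ∑ a', (∑ b, P b a * P b a') ^ 2 := by
    simp only [trace, diag_apply]
    refine sum_congr rfl fun a _ => ?_
    rw [mul_apply]
    refine sum_congr rfl fun a' _ => ?_
    simp only [mul_apply, transpose_apply, sq]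
    congr 1
    exact sum_congr rfl fun b _ => mul_comm _ _
  rwa [e1, e2] at h

end

end Vale.Agent.P346
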