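import Mathlib
import Vale.Agent.P346.Rank

namespace Vale.Agent.P346
open Matrix Finset MvPolynomial

/-- entries of the powers of the nilpotent two by two matrix -/
def st (k : ℕ) (b a : Bool) : ℕ := if k + a.toNat = b.toNat then 1 else 0

lemma st_add (k k' : ℕ) (b a : Bool) : st (k + k') b a = ∑ c : Bool, st k b c * st k' c a := by
  cases a <;> cases b <;> rcases k with _ | _ | k <;> rcases k' with _ | _ | k' <;>
    simp [st] <;> omega

section
variable {E : Type} [Fintype E] [DecidableEq E]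

/-- the multiplication operator of a monomial on the multilinear quotient algebra -/
def mon (R : Type*) [CommSemiring R] (m : E →₀ ℕ) : Matrix (E → Bool) (E → Bool) R :=
  fun B A => ∏ e, (st (m e) (B e) (A e) : R)

omit [DecidableEq E] in
lemma mon_zero (R : Type*) [CommSemiring R] : mon R (0 : E →₀ ℕ) = 1 := by
  ext B A
  simp only [mon, Finsupp.coe_zero, Pi.zero_apply, one_apply]
  split_ifs with h
  · subst h; simp [st]
  · obtain ⟨e, he⟩ := Function.ne_iff.1 h
    refine prod_eq_zero (mem_univ e) ?_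
    revert he
    cases B e <;> cases A e <;> simp [st]

lemma mon_add (R : Type*) [CommSemiring R] (m m' : E →₀ ℕ) :
    mon R (m + m') = mon R m * mon R m' := by
  ext B A
  simp only [mon, mul_apply, Finsupp.coe_add, Pi.add_apply, st_add, Nat.cast_sum, Nat.cast_mul]
  rw [prod_univ_sum]
  simp only [Fintype.piFinset_univ, prod_mul_distrib]

/-- the monoid homomorphism of monomial operators -/
def monHom (R : Type*) [CommSemiring R] :
    Multiplicative (E →₀ ℕ) →* Matrix (E → Bool) (E → Bool) R where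
  toFun m := mon R m.toAdd
  map_one' := mon_zero R
  map_mul' _ _ := mon_add R _ _

/-- the multiplication operator of a polynomial on the multilinear quotient algebra -/
noncomputable def op (K : Type*) [Field K] :
    MvPolynomial E K →ₐ[K] Matrix (E → Bool) (E → Bool) K :=
  AddMonoidAlgebra.lift K _ (E →₀ ℕ) (monHom K)

variable {K : Type*} [Field K]

lemma op_monomial (m : E →₀ ℕ) (c : K) : op K (monomial m c) = c • mon K m := by
  rw [op, ← single_eq_monomial, AddMonoidAlgebra.lift_single]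
  rfl

/-- weight of a monomial -/
def wtm (γ : E → ℤ) (m : E →₀ ℕ) : ℤ := ∑ e, γ e * m e

/-- weight of a basis vector -/
def gw (γ : E → ℤ) (A : E → Bool) : ℤ := ∑ e, γ e * (A e).toNat

omit [DecidableEq E] in
lemma wtm_add (γ : E → ℤ) (m m' : E →₀ ℕ) : wtm γ (m + m') = wtm γ m + wtm γ m' := by
  simp [wtm, mul_add, sum_add_distrib]

omit [DecidableEq E] in
lemma mon_ne_zero (γ : E → ℤ) {m : E →₀ ℕ} {B A : E → Bool} (h : mon K m B A ≠ 0) :
    wtm γ m = gw γ B - gw γ A := by
  simp only [wtm, gw, ← sum_sub_distrib]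
  refine sum_congr rfl fun e _ => ?_
  have := prod_ne_zero_iff.1 h e (mem_univ e)
  simp only [st] at this
  split_ifs at this with h1
  · rw [← h1]; push_cast; ring
  · simp at this

lemma op_ne_zero (γ : E → ℤ) {Q : MvPolynomial E K} {B A : E → Bool} (h : op K Q B A ≠ 0) :
    ∃ m ∈ Q.support, wtm γ m = gw γ B - gw γ A := by
  rw [Q.as_sum, map_sum, Matrix.sum_apply] at h
  obtain ⟨m, hm, h1⟩ := exists_ne_zero_of_sum_ne_zero h
  rw [op_monomial] at h1
  refine ⟨m, hm, mon_ne_zero (K := K) γ fun h2 => h1 ?_⟩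
  simp [h2]

/-- projection to the basis vectors of weight `g` -/
def mask (R : Type*) [CommSemiring R] (γ : E → ℤ) (g : ℤ) : Matrix (E → Bool) (E → Bool) R :=
  diagonal fun A => if gw γ A = g then 1 else 0

/-- the complexity measure -/
noncomputable def meas (γ : E → ℤ) (η : ℝ) (S : ℤ) (Q : MvPolynomial E K) : ℝ :=
  ∑ g ∈ univ.image (gw γ), η ^ (4 * g) * ((mask K γ (g + S) * op K Q * mask K γ g).rank : ℝ)

/-- the partition function -/
noncomputable def partZ (γ : E → ℤ) (η : ℝ) : ℝ := ∑ A : E → Bool, η ^ (4 * gw γ A)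

/-- the basic upper bound -/
noncomputable def bnd (γ : E → ℤ) (η : ℝ) (S R : ℤ) : ℝ :=
  ((univ.image (gw γ)).card : ℝ) * partZ γ η * η ^ (-(R + 2 * S))

variable {γ : E → ℤ} {η : ℝ} {S : ℤ}

lemma partZ_pos (hη : 1 ≤ η) : 0 < partZ γ η :=
  sum_pos (fun _ _ => zpow_pos (by linarith) _) univ_nonempty

lemma bnd_nonneg (hη : 1 ≤ η) (R : ℤ) : 0 ≤ bnd γ η S R :=
  mul_nonneg (mul_nonneg (Nat.cast_nonneg _) (partZ_pos hη).le) (zpow_pos (by linarith) _).le

lemma bnd_anti (hη : 1 ≤ η) {R R' : ℤ} (h : R ≤ R') : bnd γ η S R' ≤ bnd γ η S R :=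
  mul_le_mul_of_nonneg_left (zpow_le_zpow_right₀ hη (by omega))
    (mul_nonneg (Nat.cast_nonneg _) (partZ_pos hη).le)

lemma meas_add (hη : 1 ≤ η) (P Q : MvPolynomial E K) :
    meas γ η S (P + Q) ≤ meas γ η S P + meas γ η S Q := by
  unfold meas
  rw [← sum_add_distrib]
  refine sum_le_sum fun g _ => ?_
  rw [← mul_add, map_add, Matrix.mul_add, Matrix.add_mul]
  refine mul_le_mul_of_nonneg_left ?_ (zpow_pos (by linarith) _).le
  exact_mod_cast rank_add_le' _ _

lemma meas_smul (hη : 1 ≤ η) (c : K) (Q : MvPolynomial E K) :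
    meas γ η S (c • Q) ≤ meas γ η S Q := by
  unfold meas
  refine sum_le_sum fun g _ => ?_
  rw [map_smul, Matrix.mul_smul, Matrix.smul_mul]
  refine mul_le_mul_of_nonneg_left ?_ (zpow_pos (by linarith) _).le
  exact_mod_cast rank_smul_le' _ _

lemma meas_zero : meas γ η S (0 : MvPolynomial E K) = 0 := by
  simp [meas]

lemma meas_sum_le (hη : 1 ≤ η) {ι : Type*} (s : Finset ι) (c : ι → K) (Q : ι → MvPolynomial E K)
    (M : ℝ) (h : ∀ i ∈ s, meas γ η S (Q i) ≤ M) :
    meas γ η S (∑ i ∈ s, c i • Q i) ≤ s.card * M := by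
  classical
  induction s using Finset.induction_on with
  | empty => simp [meas_zero]
  | insert a s ha ih =>
    rw [sum_insert ha, card_insert_of_notMem ha]
    have h1 := meas_add (γ := γ) (S := S) hη (c a • Q a) (∑ i ∈ s, c i • Q i)
    have h2 := meas_smul (γ := γ) (S := S) hη (c a) (Q a)
    have h3 := h a (mem_insert_self _ _)
    have h4 := ih fun i hi => h i (mem_insert_of_mem hi)
    push_cast
    linarith

/-- all monomials have doubled weight at least `a` -/
def Lo (γ : E → ℤ) (Q : MvPolynomial E K) (a : ℤ) : Prop := ∀ m ∈ Q.support, a ≤ 2 * wtm γ m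

/-- all monomials have doubled weight at most `-b` -/
def Hi (γ : E → ℤ) (Q : MvPolynomial E K) (b : ℤ) : Prop := ∀ m ∈ Q.support, 2 * wtm γ m ≤ -b

/-- all monomials have doubled absolute weight at least `r` -/
def Res (γ : E → ℤ) (Q : MvPolynomial E K) (r : ℤ) : Prop := ∀ m ∈ Q.support, r ≤ 2 * |wtm γ m|

lemma Lo.mul {P Q : MvPolynomial E K} {a a' : ℤ} (h : Lo γ P a) (h' : Lo γ Q a') :
    Lo γ (P * Q) (a + a') := by
  intro m hm
  obtain ⟨m₁, h₁, m₂, h₂, rfl⟩ := mem_add.1 (support_mul P Q hm)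
  have := h m₁ h₁
  have := h' m₂ h₂
  rw [wtm_add]; omega

lemma Hi.mul {P Q : MvPolynomial E K} {a a' : ℤ} (h : Hi γ P a) (h' : Hi γ Q a') :
    Hi γ (P * Q) (a + a') := by
  intro m hm
  obtain ⟨m₁, h₁, m₂, h₂, rfl⟩ := mem_add.1 (support_mul P Q hm)
  have := h m₁ h₁
  have := h' m₂ h₂
  rw [wtm_add]; omega

lemma lo_one : Lo γ (1 : MvPolynomial E K) 0 := by
  intro m hm
  rw [mem_support_iff, coeff_one] at hm
  split_ifs at hm with h
  · subst h; simp [wtm]
  · simp at hm

lemma hi_one : Hi γ (1 : MvPolynomial E K) 0 := by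
  intro m hm
  rw [mem_support_iff, coeff_one] at hm
  split_ifs at hm with h
  · subst h; simp [wtm]
  · simp at hm

lemma Res.split {Q : MvPolynomial E K} {r : ℤ} (h : Res γ Q r) :
    ∃ Q₁ Q₂, Q = Q₁ + Q₂ ∧ Lo γ Q₁ r ∧ Hi γ Q₂ r := by
  refine ⟨∑ m ∈ Q.support.filter (fun m => 0 ≤ wtm γ m), monomial m (coeff m Q),
    ∑ m ∈ Q.support.filter (fun m => ¬ 0 ≤ wtm γ m), monomial m (coeff m Q), ?_, ?_, ?_⟩
  · rw [sum_filter_add_sum_filter_not]; exact Q.as_sum
  · intro m hm
    obtain ⟨m', h1, h2⟩ := mem_biUnion.1 (support_sum hm)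
    have h3 := mem_singleton.1 (support_monomial_subset h2)
    subst h3
    rw [mem_filter] at h1
    have := h m h1.1
    rwa [abs_of_nonneg h1.2] at this
  · intro m hm
    obtain ⟨m', h1, h2⟩ := mem_biUnion.1 (support_sum hm)
    have h3 := mem_singleton.1 (support_monomial_subset h2)
    subst h3
    rw [mem_filter] at h1
    have := h m h1.1
    rw [abs_of_neg (not_le.1 h1.2)] at this
    omega

omit [DecidableEq E] in
lemma res_zero (Q : MvPolynomial E K) : Res γ Q 0 := fun _ _ => by positivity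

lemma meas_base (hη : 1 ≤ η) {A B : MvPolynomial E K} {a b : ℤ} (hA : Lo γ A a) (hB : Hi γ B b) :
    meas γ η S (A * B) ≤ bnd γ η S (a + b) := by
  have hη0 : 0 < η := by linarith
  unfold meas bnd
  have key : ∀ g, ((mask K γ (g + S) * op K (A * B) * mask K γ g).rank : ℝ) ≤
      ((univ.filter fun C : E → Bool => 4 * g + (a + b + 2 * S) ≤ 4 * gw γ C).card : ℝ) := by
    intro g
    let D : Matrix (E → Bool) (E → Bool) K :=
      diagonal fun C => if 2 * (g + S) + b ≤ 2 * gw γ C then 1 else 0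
    have e1 : mask K γ (g + S) * op K B = mask K γ (g + S) * op K B * D := by
      ext B' C
      simp only [D, mask, mul_diagonal, diagonal_mul]
      by_cases h0 : op K B B' C = 0
      · simp [h0]
      · obtain ⟨m, hm, h1⟩ := op_ne_zero γ h0
        have h2 := hB m hm
        split_ifs with h3 h4
        · simp
        · omega
        · simp
        · simp
    have e2 : mask K γ (g + S) * op K (A * B) * mask K γ g =
        (mask K γ (g + S) * op K B) * (D * op K A * mask K γ g) := by
      rw [mul_comm A B, map_mul, ← Matrix.mul_assoc, e1]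
      simp only [Matrix.mul_assoc]
      congr 2
      rw [← Matrix.mul_assoc D D]
      congr 1
      simp only [D, diagonal_mul_diagonal]
      congr 1
      funext C
      split_ifs <;> simp
    rw [e2]
    refine Nat.cast_le.2 (le_trans (rank_mul_le_right _ _) (rank_le_card_of_support_subset _ _ ?_))
    intro C hC
    obtain ⟨A', hA'⟩ := Function.ne_iff.1 hC
    simp only [D, mask, row_apply, mul_diagonal, diagonal_mul, Pi.zero_apply] at hA'
    have h0 : op K A C A' ≠ 0 := fun h => hA' (by simp [h])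
    obtain ⟨m, hm, h1⟩ := op_ne_zero γ h0
    have h2 := hA m hm
    simp only [coe_filter, mem_univ, true_and, Set.mem_ofPred_eq]
    split_ifs at hA' with h3 h4
    · omega
    · simp at hA'
    · simp at hA'
    · simp at hA'
  calc _ ≤ ∑ g ∈ univ.image (gw γ), partZ γ η * η ^ (-(a + b + 2 * S)) := by
        refine sum_le_sum fun g _ => ?_
        refine le_trans (mul_le_mul_of_nonneg_left (key g) (zpow_pos hη0 _).le) ?_
        rw [card_filter, Nat.cast_sum, mul_sum, partZ, sum_mul]
        refine sum_le_sum fun C _ => ?_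
        split_ifs with h
        · rw [← zpow_add₀ hη0.ne']
          simp only [Nat.cast_one, mul_one]
          exact zpow_le_zpow_right₀ hη (by omega)
        · simp only [Nat.cast_zero, mul_zero]
          positivity
    _ = _ := by rw [sum_const, nsmul_eq_mul, mul_assoc]

lemma meas_split (hη : 1 ≤ η) {Q R : MvPolynomial E K} {r : ℤ} (hQ : Res γ Q r) (M : ℤ → ℝ)
    (h : ∀ (A B : MvPolynomial E K) (a b : ℤ), Lo γ A a → Hi γ B b →
      meas γ η S (A * B * R) ≤ M (a + b))
    {A B : MvPolynomial E K} {a b : ℤ} (hA : Lo γ A a) (hB : Hi γ B b) :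
    meas γ η S (A * B * (Q * R)) ≤ 2 * M (a + b + r) := by
  obtain ⟨Q₁, Q₂, rfl, h1, h2⟩ := hQ.split
  have e : A * B * ((Q₁ + Q₂) * R) = (A * Q₁) * B * R + A * (B * Q₂) * R := by ring
  rw [e]
  have h3 := h _ _ _ _ (hA.mul h1) hB
  have h4 := h _ _ _ _ hA (hB.mul h2)
  have h5 := meas_add (γ := γ) (S := S) hη ((A * Q₁) * B * R) (A * (B * Q₂) * R)
  rw [show a + r + b = a + b + r by ring] at h3
  rw [show a + (b + r) = a + b + r by ring] at h4
  linarith

end

end Vale.Agent.P346
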