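import Mathlib

namespace Vale.Agent.P346
open Matrix Finset

section
variable {V : Type} [Fintype V] [DecidableEq V] {R : Type*} [CommSemiring R]

/-- ordered product of the first `d` matrices -/
def prodM (M : ℕ → Matrix V V R) : ℕ → Matrix V V R
  | 0 => 1
  | d + 1 => prodM M d * M d

/-- paths with prescribed endpoints -/
def paths (V : Type) [Fintype V] [DecidableEq V] (d : ℕ) (u v : V) : Finset (Fin (d + 1) → V) :=
  univ.filter fun p => p 0 = u ∧ p (Fin.last d) = v

lemma pathSum (M : ℕ → Matrix V V R) (d : ℕ) (u v : V) :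
    ∑ p ∈ paths V d u v, ∏ j : Fin d, M j (p j.castSucc) (p j.succ) = prodM M d u v := by
  induction d generalizing v with
  | zero =>
    simp only [paths, prodM, univ_eq_empty, prod_empty, sum_const, one_apply]
    by_cases h : u = v
    · subst h
      have : (univ.filter fun p : Fin (0 + 1) → V => p 0 = u ∧ p (Fin.last 0) = u) =
          {fun _ => u} := by
        ext p
        simp only [mem_filter, mem_univ, true_and, mem_singleton]
        constructor
        · rintro ⟨h1, -⟩
          funext i
          rw [Subsingleton.elim (α := Fin 1) i 0]; exact h1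
        · rintro rfl; simp
      rw [this]; simp
    · have : (univ.filter fun p : Fin (0 + 1) → V => p 0 = u ∧ p (Fin.last 0) = v) = ∅ := by
        rw [filter_eq_empty_iff]
        rintro p - ⟨h1, h2⟩
        exact h (h1.symm.trans h2)
      rw [this]; simp [h]
  | succ d ih =>
    simp only [prodM, mul_apply, ← ih]
    simp only [paths, sum_filter]
    rw [← (Fin.snocEquiv (fun _ : Fin (d + 2) => V)).sum_comp, Fintype.sum_prod_type]
    simp only [Fin.snocEquiv, Equiv.coe_fn_mk, Fin.snoc_last, Fin.prod_univ_castSucc,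
      Fin.succ_last, ← Fin.castSucc_succ, Fin.snoc_castSucc, Fin.val_castSucc, Fin.val_last]
    have h0 : ∀ (q : Fin (d + 1) → V) (w : V),
        Fin.snoc (α := fun _ => V) q w (0 : Fin (d + 2)) = q 0 := by
      intro q w
      rw [← Fin.castSucc_zero, Fin.snoc_castSucc]
    simp only [h0]
    rw [sum_eq_single v]
    · simp only [sum_mul]
      rw [sum_comm]
      refine sum_congr rfl fun q _ => ?_
      rw [sum_eq_single (q (Fin.last d))]
      · by_cases h : q 0 = u <;> simp [h]
      · intro w _ hw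
        simp [Ne.symm hw]
      · simp
    · intro w _ hw
      simp [hw]
    · simp

lemma prodM_add (M : ℕ → Matrix V V R) (a b : ℕ) :
    prodM M (a + b) = prodM M a * prodM (fun i => M (a + i)) b := by
  induction b with
  | zero => simp [prodM]
  | succ b ih => rw [← add_assoc, prodM, prodM, ih, Matrix.mul_assoc]

lemma prodM_blocks (M : ℕ → Matrix V V R) (t m : ℕ) :
    prodM M (m * t) = prodM (fun b => prodM (fun i => M (b * t + i)) t) m := by
  induction m with
  | zero => simp [prodM]
  | succ m ih => rw [Nat.succ_mul, prodM_add, ih, prodM]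

lemma prodM_one (M : ℕ → Matrix V V R) (b : ℕ) (h : ∀ i < b, M i = 1) : prodM M b = 1 := by
  induction b with
  | zero => rfl
  | succ b ih => rw [prodM, ih fun i hi => h i (by omega), h b (by omega), Matrix.mul_one]

lemma prodM_ones (d : ℕ) (u v : V) :
    prodM (fun _ => (Matrix.of fun _ _ => 1 : Matrix V V ℝ)) (d + 1) u v =
      (Fintype.card V : ℝ) ^ d := by
  induction d generalizing v with
  | zero => simp [prodM]
  | succ d ih =>
    rw [prodM, mul_apply]
    simp only [ih, of_apply, mul_one, sum_const, card_univ, nsmul_eq_mul]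
    ring

lemma card_paths (d : ℕ) (u v : V) :
    ((paths V (d + 1) u v).card : ℝ) = (Fintype.card V : ℝ) ^ d := by
  rw [← prodM_ones d u v, ← pathSum]
  simp

/-- first pairing indicator -/
def pI (v : V × V × V × V) : ℝ := if v.1 = v.2.1 ∧ v.2.2.1 = v.2.2.2 then 1 else 0

/-- second pairing indicator -/
def pII (v : V × V × V × V) : ℝ := if v.1 = v.2.2.2 ∧ v.2.1 = v.2.2.1 then 1 else 0

lemma sum_pI_pI : ∑ v : V × V × V × V, pI v * pI v = (Fintype.card V : ℝ) ^ 2 := by
  simp only [Fintype.sum_prod_type, pI, ite_and, mul_ite, mul_one, mul_zero]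
  simp [sq]

lemma sum_pII_pII : ∑ v : V × V × V × V, pII v * pII v = (Fintype.card V : ℝ) ^ 2 := by
  simp only [Fintype.sum_prod_type, pII, ite_and, mul_ite, mul_one, mul_zero]
  simp [sq]

lemma sum_pI_pII : ∑ v : V × V × V × V, pI v * pII v = (Fintype.card V : ℝ) := by
  simp only [Fintype.sum_prod_type, pI, pII, ite_and, mul_ite, mul_one, mul_zero]
  have : ∀ a b c d : V, (if a = d then if b = c then if a = b then if c = d then (1 : ℝ) else 0
      else 0 else 0 else 0) = if a = b then if b = c then if c = d then 1 else 0 else 0 else 0 := by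
    intro a b c d
    split_ifs <;> first | rfl | (exfalso; subst_vars; simp_all)
  simp only [this]
  simp

/-- transfer kernel of the second moment -/
def ker4 (V : Type) [DecidableEq V] (ω : ℕ → ℝ) (j : ℕ) :
    Matrix (V × V × V × V) (V × V × V × V) ℝ :=
  Matrix.of fun v v' => pI v * pI v' + ω j * (pII v * pII v')

lemma transfer_bound (ω : ℕ → ℝ) (hω : ∀ j, 0 < ω j) (θ : ℝ) (hθ : 1 ≤ θ)
    (h1 : ∀ j, ∏ i ∈ range j, ω i ≤ θ) (h2 : ∀ j, 1 ≤ θ * ∏ i ∈ range j, ω i) (o : V) (d : ℕ) :
    prodM (ker4 V ω) (d + 1) (o, o, o, o) (o, o, o, o) ≤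
      (1 + θ) * ((Fintype.card V : ℝ) ^ 2 + Fintype.card V * θ) ^ d := by
  set n : ℝ := (Fintype.card V : ℝ) with hn
  have hn0 : 0 ≤ n := Nat.cast_nonneg _
  set L : ℝ := n ^ 2 + n * θ with hL
  have hL0 : 0 ≤ L := by positivity
  have step : ∀ j v', prodM (ker4 V ω) (j + 1) (o, o, o, o) v' =
      (∑ v, prodM (ker4 V ω) j (o, o, o, o) v * pI v) * pI v' +
        ω j * (∑ v, prodM (ker4 V ω) j (o, o, o, o) v * pII v) * pII v' := by
    intro j v'
    rw [prodM, mul_apply, sum_mul, mul_sum, sum_mul, ← sum_add_distrib]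
    refine sum_congr rfl fun v _ => ?_
    simp only [ker4, of_apply]
    ring
  have key : ∀ j, (∑ v, prodM (ker4 V ω) j (o, o, o, o) v * pI v) ≤ L ^ j ∧
      (∑ v, prodM (ker4 V ω) j (o, o, o, o) v * pII v) ≤ (∏ i ∈ range j, ω i) * L ^ j := by
    intro j
    induction j with
    | zero =>
      simp only [prodM, one_apply, ite_mul, one_mul, zero_mul, sum_ite_eq, mem_univ, if_true]
      simp [pI, pII]
    | succ j ih =>
      obtain ⟨i1, i2⟩ := ih
      set α := ∑ v, prodM (ker4 V ω) j (o, o, o, o) v * pI v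
      set β := ∑ v, prodM (ker4 V ω) j (o, o, o, o) v * pII v
      have hLj : 0 ≤ L ^ j := by positivity
      have hs1 := h1 (j + 1)
      have hs2 := h2 (j + 1)
      rw [prod_range_succ] at hs1 hs2 ⊢
      set s := ∏ i ∈ range j, ω i
      have hw := hω j
      have hβ : ω j * β ≤ s * ω j * L ^ j := by nlinarith
      constructor
      · have e : ∑ v, prodM (ker4 V ω) (j + 1) (o, o, o, o) v * pI v =
            α * n ^ 2 + ω j * β * n := by
          simp only [step, add_mul, sum_add_distrib, mul_assoc, ← mul_sum]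
          rw [sum_pI_pI, show (∑ v : V × V × V × V, pII v * pI v) = n by
            rw [hn, ← sum_pI_pII]; exact sum_congr rfl fun v _ => mul_comm _ _]
        rw [e, pow_succ L j, hL]
        have a1 : α * n ^ 2 ≤ L ^ j * n ^ 2 := mul_le_mul_of_nonneg_right i1 (by positivity)
        have a2 : ω j * β * n ≤ θ * L ^ j * n :=
          mul_le_mul_of_nonneg_right (hβ.trans (mul_le_mul_of_nonneg_right hs1 hLj)) hn0
        rw [← hL]
        nlinarith
      · have e : ∑ v, prodM (ker4 V ω) (j + 1) (o, o, o, o) v * pII v =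
            α * n + ω j * β * n ^ 2 := by
          simp only [step, add_mul, sum_add_distrib, mul_assoc, ← mul_sum]
          rw [sum_pII_pII, sum_pI_pII]
        rw [e, pow_succ L j]
        have a1 : α * n ≤ θ * (s * ω j) * L ^ j * n := by
          refine mul_le_mul_of_nonneg_right (i1.trans ?_) hn0
          nlinarith
        have a2 : ω j * β * n ^ 2 ≤ s * ω j * L ^ j * n ^ 2 :=
          mul_le_mul_of_nonneg_right hβ (by positivity)
        calc _ ≤ θ * (s * ω j) * L ^ j * n + s * ω j * L ^ j * n ^ 2 := add_le_add a1 a2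
          _ = _ := by rw [hL]; ring
  rw [step]
  obtain ⟨i1, i2⟩ := key d
  have hs1 := h1 (d + 1)
  rw [prod_range_succ] at hs1
  have hLj : 0 ≤ L ^ d := by positivity
  have hw := hω d
  simp only [pI, pII, and_self, if_true, mul_one] at i1 i2 ⊢
  nlinarith

end

/-- greedy prefix sums -/
def pref (τ : ℕ) : ℕ → ℤ
  | 0 => 0
  | j + 1 => pref τ j + if pref τ j ≤ 0 then 2 * (τ : ℤ) else -(2 * τ - 1)

/-- greedy layer weights -/
def gam (τ j : ℕ) : ℤ := if pref τ j ≤ 0 then 2 * (τ : ℤ) else -(2 * τ - 1)

lemma gam_cases (τ j : ℕ) : gam τ j = 2 * τ ∨ gam τ j = -(2 * τ - 1) := by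
  unfold gam; split_ifs <;> simp

lemma sum_gam (τ j : ℕ) : ∑ i ∈ range j, gam τ i = pref τ j := by
  induction j with
  | zero => simp [pref]
  | succ j ih => rw [sum_range_succ, ih]; rfl

lemma pref_bound (τ : ℕ) (j : ℕ) : -(2 * (τ : ℤ)) ≤ pref τ j ∧ pref τ j ≤ 2 * τ := by
  induction j with
  | zero => simp [pref]
  | succ j ih => simp only [pref]; split_ifs <;> omega

end Vale.Agent.P346
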