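import Mathlib
import Vale.Agent.P346.Op
import Vale.Agent.P346.Paths

namespace Vale.Agent.P346
open Matrix Finset MvPolynomial

lemma zpow_sum' {ι : Type*} {a : ℝ} (ha : a ≠ 0) (s : Finset ι) (f : ι → ℤ) :
    a ^ (∑ i ∈ s, f i) = ∏ i ∈ s, a ^ f i := by
  classical
  induction s using Finset.induction_on with
  | empty => simp
  | insert i s hi ih => rw [sum_insert hi, prod_insert hi, zpow_add₀ ha, ih]

section general
variable {E : Type} [Fintype E] [DecidableEq E] {ι : Type}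

/-- operator of a sum of monomials -/
def sumMon (R : Type*) [CommSemiring R] (s : Finset ι) (m : ι → E →₀ ℕ) :
    Matrix (E → Bool) (E → Bool) R := ∑ p ∈ s, mon R (m p)

omit [DecidableEq E] in
lemma sumMon_apply (R : Type*) [CommSemiring R] (s : Finset ι) (m : ι → E →₀ ℕ) (B A : E → Bool) :
    sumMon R s m B A = ((∑ p ∈ s, ∏ e, st (m p e) (B e) (A e) : ℕ) : R) := by
  simp [sumMon, Matrix.sum_apply, mon]

lemma masked_map {K : Type*} [Field K] [CharZero K] (γ : E → ℤ) (s : Finset ι) (m : ι → E →₀ ℕ)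
    (g g' : ℤ) : mask K γ g' * sumMon K s m * mask K γ g =
      (mask ℚ γ g' * sumMon ℚ s m * mask ℚ γ g).map (algebraMap ℚ K) := by
  ext B A
  simp only [mask, mul_diagonal, diagonal_mul, map_apply, sumMon_apply]
  split_ifs <;> simp

lemma meas_lower {K : Type*} [Field K] [CharZero K] (γ : E → ℤ) {η : ℝ} (hη : 1 ≤ η) (S : ℤ)
    (s : Finset ι) (m : ι → E →₀ ℕ) (hm : ∀ p ∈ s, wtm γ (m p) = S) (Q : MvPolynomial E K)
    (hQ : op K Q = sumMon K s m) :
    (∑ A, η ^ (4 * gw γ A) * ∑ B, sumMon ℝ s m B A) ^ 2 ≤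
      meas γ η S Q * ∑ A, η ^ (4 * gw γ A) *
        ∑ A', (∑ B, sumMon ℝ s m B A * sumMon ℝ s m B A') ^ 2 := by
  have hη0 : 0 < η := by linarith
  set P := sumMon ℝ s m with hP
  have hP0 : ∀ B A, 0 ≤ P B A := fun B A => by rw [hP, sumMon_apply]; exact Nat.cast_nonneg _
  have hPsq : ∀ B A, P B A ≤ P B A ^ 2 := fun B A => by
    rw [hP, sumMon_apply]; exact_mod_cast Nat.le_self_pow two_ne_zero _
  have hPw : ∀ B A, P B A ≠ 0 → gw γ B = gw γ A + S := by
    intro B A h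
    rw [hP, sumMon, Matrix.sum_apply] at h
    obtain ⟨p, hp, h1⟩ := exists_ne_zero_of_sum_ne_zero h
    have := mon_ne_zero γ h1
    rw [hm p hp] at this
    omega
  let Pg : ℤ → Matrix (E → Bool) (E → Bool) ℝ := fun g => mask ℝ γ (g + S) * P * mask ℝ γ g
  have hPg : ∀ g B A, Pg g B A = if gw γ A = g then P B A else 0 := by
    intro g B A
    simp only [Pg, mask, mul_diagonal, diagonal_mul]
    by_cases h0 : P B A = 0
    · simp [h0]
    · have := hPw B A h0
      split_ifs with h1 h2 h3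
      · simp
      · simp
      · omega
      · simp
  have hrank : ∀ g, (mask K γ (g + S) * op K Q * mask K γ g).rank = (Pg g).rank := by
    intro g
    simp only [Pg, hP]
    rw [hQ, masked_map, masked_map (K := ℝ), rank_map_rat, rank_map_rat]
  have hCS := sum_sq_le_sum_mul_sum_of_sq_le_mul (univ.image (gw γ))
    (r := fun g => η ^ (4 * g) * ∑ A, ∑ B, Pg g B A ^ 2)
    (f := fun g => η ^ (4 * g) * ((Pg g).rank : ℝ))
    (g := fun g => η ^ (4 * g) * ∑ A, ∑ A', (∑ B, Pg g B A * Pg g B A') ^ 2)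
    (fun g _ => by positivity) (fun g _ => by positivity)
    (fun g _ => by
      have := frob_sq_le_rank (Pg g)
      have h2 : 0 ≤ (η ^ (4 * g)) ^ 2 := by positivity
      calc _ = (η ^ (4 * g)) ^ 2 * (∑ A, ∑ B, Pg g B A ^ 2) ^ 2 := by ring
        _ ≤ (η ^ (4 * g)) ^ 2 * (((Pg g).rank : ℝ) *
            ∑ A, ∑ A', (∑ B, Pg g B A * Pg g B A') ^ 2) := mul_le_mul_of_nonneg_left this h2
        _ = _ := by ring)
  have fib : ∀ F : (E → Bool) → ℝ, ∑ g ∈ univ.image (gw γ), η ^ (4 * g) *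
      ∑ A, (if gw γ A = g then F A else 0) = ∑ A, η ^ (4 * gw γ A) * F A := by
    intro F
    simp only [mul_sum]
    rw [sum_comm]
    refine sum_congr rfl fun A _ => ?_
    rw [sum_eq_single (gw γ A)]
    · simp
    · intro g _ hg
      simp [Ne.symm hg]
    · intro h
      exact absurd (mem_image_of_mem _ (mem_univ A)) h
  have e1 : ∑ A, η ^ (4 * gw γ A) * ∑ B, P B A ≤
      ∑ g ∈ univ.image (gw γ), η ^ (4 * g) * ∑ A, ∑ B, Pg g B A ^ 2 := by
    have : ∀ g A, ∑ B, Pg g B A ^ 2 = if gw γ A = g then ∑ B, P B A ^ 2 else 0 := by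
      intro g A
      simp only [hPg]
      split_ifs <;> simp
    simp only [this]
    rw [fib]
    exact sum_le_sum fun A _ => mul_le_mul_of_nonneg_left (sum_le_sum fun B _ => hPsq B A)
      (by positivity)
  have e2 : ∑ g ∈ univ.image (gw γ), η ^ (4 * g) * ∑ A, ∑ A', (∑ B, Pg g B A * Pg g B A') ^ 2 ≤
      ∑ A, η ^ (4 * gw γ A) * ∑ A', (∑ B, P B A * P B A') ^ 2 := by
    rw [← fib]
    refine sum_le_sum fun g _ => mul_le_mul_of_nonneg_left (sum_le_sum fun A _ => ?_)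
      (by positivity)
    simp only [hPg]
    split_ifs with h
    · refine sum_le_sum fun A' _ => ?_
      split_ifs
      · exact le_rfl
      · simp only [mul_zero, sum_const_zero]
        nlinarith [sq_nonneg (∑ B, P B A * P B A')]
    · simp
  have e3 : meas γ η S Q = ∑ g ∈ univ.image (gw γ), η ^ (4 * g) * ((Pg g).rank : ℝ) := by
    simp only [meas, hrank]
  have h0 : 0 ≤ ∑ A, η ^ (4 * gw γ A) * ∑ B, P B A :=
    sum_nonneg fun A _ => mul_nonneg (by positivity) (sum_nonneg fun B _ => hP0 B A)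
  rw [e3]
  refine le_trans (pow_le_pow_left₀ h0 e1 2) (le_trans hCS ?_)
  exact mul_le_mul_of_nonneg_left e2 (sum_nonneg fun g _ => by positivity)

omit [DecidableEq E] in
lemma weight_prod (γ : E → ℤ) {η : ℝ} (hη : 0 < η) (A : E → Bool) :
    η ^ (4 * gw γ A) = ∏ e, (η ^ (4 * γ e)) ^ (A e).toNat := by
  rw [gw, mul_sum, zpow_sum' hη.ne']
  refine prod_congr rfl fun e _ => ?_
  rw [← zpow_natCast, ← _root_.zpow_mul, mul_assoc]

lemma partZ_eq (γ : E → ℤ) {η : ℝ} (hη : 0 < η) : partZ γ η = ∏ e, (1 + η ^ (4 * γ e)) := by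
  simp only [partZ, weight_prod γ hη]
  have := prod_univ_sum (fun _ : E => (univ : Finset Bool))
    (fun e (a : Bool) => (η ^ (4 * γ e)) ^ a.toNat)
  rw [Fintype.piFinset_univ] at this
  rw [← this]
  refine prod_congr rfl fun e _ => ?_
  simp [add_comm]

/-- local first moment -/
def f1 (ω : ℝ) (i : ℕ) : ℝ := ∑ a : Bool, ∑ b : Bool, ω ^ a.toNat * st i b a

/-- local second moment -/
def f4 (ω : ℝ) (i₁ i₂ i₃ i₄ : ℕ) : ℝ := ∑ a : Bool, ∑ a' : Bool, ∑ b : Bool, ∑ b' : Bool,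
  ω ^ a.toNat * (st i₁ b a * st i₂ b a' * (st i₄ b' a * st i₃ b' a'))

lemma sum_pi_prod (F : E → Bool → ℝ) : ∑ A : E → Bool, ∏ e, F e (A e) = ∏ e, ∑ a, F e a := by
  rw [prod_univ_sum, Fintype.piFinset_univ]

lemma first_moment (γ : E → ℤ) {η : ℝ} (hη : 0 < η) (s : Finset ι) (m : ι → E →₀ ℕ) :
    ∑ A, η ^ (4 * gw γ A) * ∑ B, sumMon ℝ s m B A = ∑ p ∈ s, ∏ e, f1 (η ^ (4 * γ e)) (m p e) := by
  simp only [sumMon, Matrix.sum_apply, mon, weight_prod γ hη, mul_sum, ← prod_mul_distrib, f1]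
  simp only [prod_univ_sum, Fintype.piFinset_univ]
  symm
  rw [sum_comm]
  refine sum_congr rfl fun A _ => ?_
  rw [sum_comm]

lemma second_moment (γ : E → ℤ) {η : ℝ} (hη : 0 < η) (s : Finset ι) (m : ι → E →₀ ℕ) :
    ∑ A, η ^ (4 * gw γ A) * ∑ A', (∑ B, sumMon ℝ s m B A * sumMon ℝ s m B A') ^ 2 =
      ∑ x ∈ s ×ˢ s ×ˢ s ×ˢ s,
        ∏ e, f4 (η ^ (4 * γ e)) (m x.1 e) (m x.2.1 e) (m x.2.2.1 e) (m x.2.2.2 e) := by
  have e1 : ∀ x : ι × ι × ι × ι,
      ∏ e, f4 (η ^ (4 * γ e)) (m x.1 e) (m x.2.1 e) (m x.2.2.1 e) (m x.2.2.2 e) =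
      ∑ A, ∑ A', ∑ B, ∑ B', η ^ (4 * gw γ A) * (mon ℝ (m x.1) B A * mon ℝ (m x.2.1) B A' *
        (mon ℝ (m x.2.2.2) B' A * mon ℝ (m x.2.2.1) B' A')) := by
    intro x
    simp only [mon, weight_prod γ hη, ← prod_mul_distrib, f4]
    simp only [prod_univ_sum, Fintype.piFinset_univ]
  simp only [e1]
  rw [sum_comm]
  refine sum_congr rfl fun A _ => ?_
  rw [sum_comm, mul_sum]
  refine sum_congr rfl fun A' _ => ?_
  rw [sq, sum_mul_sum, mul_sum, sum_comm]
  refine sum_congr rfl fun B _ => ?_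
  rw [mul_sum, sum_comm]
  refine sum_congr rfl fun B' _ => ?_
  rw [← mul_sum]
  congr 1
  simp only [sumMon, Matrix.sum_apply, sum_product]
  rw [sum_mul_sum s s, sum_mul]
  refine sum_congr rfl fun p1 _ => ?_
  rw [sum_mul]
  refine sum_congr rfl fun p2 _ => ?_
  rw [sum_mul_sum s s, sum_comm, mul_sum]
  refine sum_congr rfl fun p3 _ => ?_
  rw [mul_sum]

end general

section layer
variable {F : Type} [Fintype F] [DecidableEq F]

lemma prod_one_pt (g : F → ℝ) (c : ℝ) (x : F) (h : ∀ f, f ≠ x → g f = c) :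
    c * ∏ f, g f = c ^ Fintype.card F * g x := by
  rw [← mul_prod_erase univ g (mem_univ x), prod_congr rfl fun f hf => h f (ne_of_mem_erase hf),
    prod_const, ← card_univ, ← card_erase_add_one (mem_univ x)]
  ring

lemma prod_two_pt (g : F → ℝ) (c : ℝ) (x y : F) (hxy : x ≠ y) (h : ∀ f, f ≠ x → f ≠ y → g f = c) :
    c ^ 2 * ∏ f, g f = c ^ Fintype.card F * (g x * g y) := by
  have hy : y ∈ univ.erase x := mem_erase.2 ⟨hxy.symm, mem_univ y⟩
  rw [← mul_prod_erase univ g (mem_univ x), ← mul_prod_erase _ g hy,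
    prod_congr rfl fun f hf => h f (ne_of_mem_erase (mem_of_mem_erase hf)) (ne_of_mem_erase hf),
    prod_const, ← card_univ, ← card_erase_add_one (mem_univ x), ← card_erase_add_one hy]
  ring

lemma layer1 (ω : ℝ) (x : F) :
    (1 + ω) * ∏ f, f1 ω (if f = x then 1 else 0) = (1 + ω) ^ Fintype.card F := by
  rw [prod_one_pt _ (1 + ω) x]
  · simp [f1, st]
  · intro f hf
    simp [f1, st, hf, add_comm]

lemma layer4 (ω : ℝ) (hω : 0 ≤ ω) (e₁ e₂ e₃ e₄ : F) :
    (1 + ω) ^ 2 * ∏ f, f4 ω (if f = e₁ then 1 else 0) (if f = e₂ then 1 else 0)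
      (if f = e₃ then 1 else 0) (if f = e₄ then 1 else 0) ≤
      (1 + ω) ^ Fintype.card F * ((if e₁ = e₂ ∧ e₃ = e₄ then 1 else 0) +
        ω * (if e₁ = e₄ ∧ e₂ = e₃ then 1 else 0)) := by
  have hc : 0 ≤ (1 + ω) ^ Fintype.card F := by positivity
  by_cases hI : e₁ = e₂ ∧ e₃ = e₄
  · obtain ⟨rfl, rfl⟩ := hI
    by_cases h13 : e₁ = e₃
    · subst h13
      rw [sq, mul_assoc, prod_one_pt _ (1 + ω) e₁]
      · simp [f4, st, mul_comm]
      · intro f hf
        simp [f4, st, hf, add_comm]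
    · rw [prod_two_pt _ (1 + ω) e₁ e₃ h13]
      · simp [f4, st, h13, Ne.symm h13]
      · intro f hf hf'
        simp [f4, st, hf, hf', add_comm]
  · by_cases hII : e₁ = e₄ ∧ e₂ = e₃
    · obtain ⟨rfl, rfl⟩ := hII
      have h12 : e₁ ≠ e₂ := fun h => hI ⟨h, h.symm⟩
      rw [prod_two_pt _ (1 + ω) e₁ e₂ h12]
      · simp [f4, st, h12, Ne.symm h12]
      · intro f hf hf'
        simp [f4, st, hf, hf', add_comm]
    · rw [if_neg hI, if_neg hII]
      simp only [mul_zero, add_zero]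
      apply le_of_eq
      apply mul_eq_zero_of_right
      by_cases h12 : e₁ = e₂
      · subst h12
        have h34 : e₃ ≠ e₄ := fun h => hI ⟨rfl, h⟩
        refine prod_eq_zero (mem_univ e₃) ?_
        by_cases h13 : e₃ = e₁ <;> simp [f4, st, h34, h13]
        subst h13
        simp [h34]
      · by_cases h14 : e₁ = e₄
        · subst h14
          have h23 : e₂ ≠ e₃ := fun h => hII ⟨rfl, h⟩
          refine prod_eq_zero (mem_univ e₂) ?_
          simp [f4, st, h23, Ne.symm h12]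
        · refine prod_eq_zero (mem_univ e₁) ?_
          by_cases h13 : e₁ = e₃ <;> simp [f4, st, h12, h14, h13]
          subst h13
          simp [h12, h14]

end layer

end Vale.Agent.P346
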