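import Mathlib

namespace Vale.Agent.P346

/-- A layered circuit of shape sum, product, sum, product, sum (from the output down) over the
field `K` in the variables `σ`.  Layer 0 holds the leaves (variables or constants), layer 1 the
bottom sum gates, layer 2 product gates, layer 3 sum gates, layer 4 product gates, and there is one
output sum gate.  A sum gate has a set of inputs in the layer below and a coefficient for each; a
product gate has a multiset of inputs in the layer below. -/
structure Circuit (K : Type*) (σ : Type) where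
  n0 : ℕ
  n1 : ℕ
  n2 : ℕ
  n3 : ℕ
  n4 : ℕ
  leaf : Fin n0 → σ ⊕ K
  in1 : Fin n1 → Finset (Fin n0)
  c1 : Fin n1 → Fin n0 → K
  in2 : Fin n2 → Multiset (Fin n1)
  in3 : Fin n3 → Finset (Fin n2)
  c3 : Fin n3 → Fin n2 → K
  in4 : Fin n4 → Multiset (Fin n3)
  in5 : Finset (Fin n4)
  c5 : Fin n4 → K

namespace Circuit

variable {K : Type*} [Field K] {σ : Type} (Γ : Circuit K σ)

/-- the polynomial at a leaf -/
noncomputable def val0 (i : Fin Γ.n0) : MvPolynomial σ K :=
  Sum.elim MvPolynomial.X MvPolynomial.C (Γ.leaf i)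

/-- the polynomial at a bottom sum gate -/
noncomputable def val1 (g : Fin Γ.n1) : MvPolynomial σ K :=
  ∑ i ∈ Γ.in1 g, Γ.c1 g i • Γ.val0 i

/-- the polynomial at a lower product gate -/
noncomputable def val2 (g : Fin Γ.n2) : MvPolynomial σ K :=
  ((Γ.in2 g).map Γ.val1).prod

/-- the polynomial at a middle sum gate -/
noncomputable def val3 (g : Fin Γ.n3) : MvPolynomial σ K :=
  ∑ i ∈ Γ.in3 g, Γ.c3 g i • Γ.val2 i

/-- the polynomial at an upper product gate -/
noncomputable def val4 (g : Fin Γ.n4) : MvPolynomial σ K :=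
  ((Γ.in4 g).map Γ.val3).prod

/-- the polynomial at the output gate -/
noncomputable def output : MvPolynomial σ K :=
  ∑ i ∈ Γ.in5, Γ.c5 i • Γ.val4 i

/-- the number of vertices -/
def size : ℕ := Γ.n0 + Γ.n1 + Γ.n2 + Γ.n3 + Γ.n4 + 1

/-- formal degree of a leaf: one for a variable, zero for a constant -/
def deg0 (i : Fin Γ.n0) : ℕ := Sum.elim (fun _ => 1) (fun _ => 0) (Γ.leaf i)

/-- Syntactic homogeneity: every sum gate has a formal degree shared by all its inputs, where a
product gate has the sum of the formal degrees of its inputs, with multiplicity. -/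
def Homogeneous : Prop :=
  ∃ (d1 : Fin Γ.n1 → ℕ) (d3 : Fin Γ.n3 → ℕ) (d5 : ℕ),
    (∀ g, ∀ i ∈ Γ.in1 g, Γ.deg0 i = d1 g) ∧
    (∀ g, ∀ i ∈ Γ.in3 g, ((Γ.in2 i).map d1).sum = d3 g) ∧
    (∀ i ∈ Γ.in5, ((Γ.in4 i).map d3).sum = d5)

end Circuit

/-- Iterated matrix multiplication: the top left entry of the product of `d` generic `w × w`
matrices, written as the sum over index sequences starting and ending at the first index. -/
noncomputable def imm (K : Type*) [Field K] (w d : ℕ) : MvPolynomial (Fin d × Fin w × Fin w) K :=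
  ∑ p ∈ Finset.univ.filter
      (fun p : Fin (d + 1) → Fin w => (p 0).val = 0 ∧ (p (Fin.last d)).val = 0),
    ∏ j : Fin d, MvPolynomial.X (j, p j.castSucc, p j.succ)

/-- the least size of a syntactically homogeneous depth-five circuit computing `imm K n n` -/
noncomputable def minSize (K : Type*) [Field K] (n : ℕ) : ℕ :=
  sInf {s : ℕ | ∃ Γ : Circuit K (Fin n × Fin n × Fin n),
    Γ.Homogeneous ∧ Γ.output = imm K n n ∧ Γ.size = s}

end Vale.Agent.P346
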