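import Mathlib
import Vale.Agent.P346.Op
import Vale.Agent.P346.Defs

namespace Vale.Agent.P346
open Matrix Finset MvPolynomial

section
variable {E : Type} [Fintype E] [DecidableEq E] {K : Type*} [Field K]
variable {γ : E → ℤ} {η : ℝ} {S : ℤ} {τ : ℕ}

omit [DecidableEq E] in
lemma wtm_two_values (hγ : ∀ e, γ e = 2 * τ ∨ γ e = -(2 * τ - 1)) {Q : MvPolynomial E K} {d : ℕ}
    (hQ : Q.IsHomogeneous d) {m : E →₀ ℕ} (hm : m ∈ Q.support) :
    ∃ a b : ℕ, a + b = d ∧ wtm γ m = 2 * τ * a - (2 * τ - 1) * b := by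
  classical
  refine ⟨∑ e ∈ univ.filter (fun e => γ e = 2 * τ), m e,
    ∑ e ∈ univ.filter (fun e => ¬ γ e = 2 * τ), m e, ?_, ?_⟩
  · rw [sum_filter_add_sum_filter_not]
    have h1 : m.degree = d := by
      by_contra h
      exact (mem_support_iff.1 hm) (hQ.coeff_eq_zero h)
    rw [← h1, Finsupp.degree_eq_sum]
  · unfold wtm
    rw [← sum_filter_add_sum_filter_not univ (fun e => γ e = 2 * τ)]
    push_cast
    rw [mul_sum, mul_sum, sub_eq_add_neg, ← sum_neg_distrib]
    congr 1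
    · exact sum_congr rfl fun e he => by rw [(mem_filter.1 he).2]
    · refine sum_congr rfl fun e he => ?_
      rw [(hγ e).resolve_left (mem_filter.1 he).2]
      ring

omit [DecidableEq E] in
lemma res_low (hγ : ∀ e, γ e = 2 * τ ∨ γ e = -(2 * τ - 1)) {Q : MvPolynomial E K} {d : ℕ}
    (hQ : Q.IsHomogeneous d) (hd : d ≤ τ) : Res γ Q d := by
  intro m hm
  obtain ⟨a, b, hab, hw⟩ := wtm_two_values hγ hQ hm
  rw [hw]
  have hab' : (a : ℤ) + b = d := by exact_mod_cast hab
  have hd' : (d : ℤ) ≤ τ := by exact_mod_cast hd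
  have ha : (0 : ℤ) ≤ a := Nat.cast_nonneg _
  have hb : (0 : ℤ) ≤ b := Nat.cast_nonneg _
  rcases lt_trichotomy (a : ℤ) b with h | h | h
  · have : (τ : ℤ) * 1 ≤ τ * (b - a) := mul_le_mul_of_nonneg_left (by omega) (by omega)
    have h2 := neg_le_abs (2 * (τ : ℤ) * a - (2 * τ - 1) * b)
    nlinarith
  · have h2 := le_abs_self (2 * (τ : ℤ) * a - (2 * τ - 1) * b)
    rw [h] at h2 ⊢
    nlinarith
  · have : (τ : ℤ) * 1 ≤ τ * (a - b) := mul_le_mul_of_nonneg_left (by omega) (by omega)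
    have h2 := le_abs_self (2 * (τ : ℤ) * a - (2 * τ - 1) * b)
    nlinarith

omit [DecidableEq E] in
lemma res_lin (hγ : ∀ e, γ e = 2 * τ ∨ γ e = -(2 * τ - 1)) {Q : MvPolynomial E K}
    (hQ : Q.IsHomogeneous 1) : Res γ Q (4 * τ - 2) := by
  intro m hm
  obtain ⟨a, b, hab, hw⟩ := wtm_two_values hγ hQ hm
  rw [hw]
  have h1 := neg_le_abs (2 * (τ : ℤ) * a - (2 * τ - 1) * b)
  have h2 := le_abs_self (2 * (τ : ℤ) * a - (2 * τ - 1) * b)
  rcases (by omega : (a = 1 ∧ b = 0) ∨ (a = 0 ∧ b = 1)) with ⟨rfl, rfl⟩ | ⟨rfl, rfl⟩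
  · push_cast at h1 h2 ⊢; linarith
  · push_cast at h1 h2 ⊢; linarith

lemma meas_any (hη : 1 ≤ η) {Q : MvPolynomial E K} {r : ℤ} (hQ : Res γ Q r)
    {A B : MvPolynomial E K} {a b : ℤ} (hA : Lo γ A a) (hB : Hi γ B b) :
    meas γ η S (A * B * Q) ≤ 2 * bnd γ η S (a + b + r) := by
  have := meas_split (R := 1) hη hQ (bnd γ η S)
    (fun A B a b hA hB => by rw [mul_one]; exact meas_base hη hA hB) hA hB
  rwa [mul_one] at this

lemma typeA (hη : 1 ≤ η) (hγ : ∀ e, γ e = 2 * τ ∨ γ e = -(2 * τ - 1)) {κ : ℝ} (hκ1 : 1 ≤ κ)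
    (hκ : 2 ≤ κ ^ τ) {ι : Type*} (val : ι → MvPolynomial E K) (deg : ι → ℕ) (s : Multiset ι)
    (hs : ∀ i ∈ s, (val i).IsHomogeneous (deg i) ∧ deg i ≤ τ) :
    ∀ (Acc : MvPolynomial E K) (e : ℕ), Acc.IsHomogeneous e → e ≤ τ →
      ∀ (A B : MvPolynomial E K) (a b : ℤ), Lo γ A a → Hi γ B b →
        meas γ η S (A * B * (Acc * (s.map val).prod)) ≤
          2 * κ ^ (e + 2 * (s.map deg).sum) * bnd γ η S (a + b + e + ((s.map deg).sum : ℕ)) := by
  induction s using Multiset.induction_on with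
  | empty =>
    intro Acc e hAcc he A B a b hA hB
    simp only [Multiset.map_zero, Multiset.prod_zero, mul_one, Multiset.sum_zero, mul_zero,
      add_zero, Nat.cast_zero]
    refine le_trans (meas_any hη (res_low hγ hAcc he) hA hB) ?_
    have h1 : 1 ≤ κ ^ e := one_le_pow₀ hκ1
    have h2 := bnd_nonneg (γ := γ) (S := S) hη (a + b + e)
    nlinarith
  | cons i s ih =>
    intro Acc e hAcc he A B a b hA hB
    have hi := hs i (Multiset.mem_cons_self _ _)
    have ih' := ih fun j hj => hs j (Multiset.mem_cons_of_mem hj)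
    simp only [Multiset.map_cons, Multiset.prod_cons, Multiset.sum_cons]
    set D := (s.map deg).sum
    by_cases hc : e + deg i ≤ τ
    · have h1 := ih' (Acc * val i) (e + deg i) (hAcc.mul hi.1) hc A B a b hA hB
      rw [← mul_assoc Acc]
      refine le_trans h1 ?_
      have e1 : a + b + ((e + deg i : ℕ) : ℤ) + (D : ℤ) = a + b + e + ((deg i + D : ℕ) : ℤ) := by
        push_cast; ring
      rw [e1]
      refine mul_le_mul_of_nonneg_right ?_ (bnd_nonneg hη _)
      exact mul_le_mul_of_nonneg_left (pow_le_pow_right₀ hκ1 (by omega)) (by norm_num)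
    · have h1 := meas_split (R := val i * (s.map val).prod) hη (res_low hγ hAcc he)
        (fun z => 2 * κ ^ (deg i + 2 * D) * bnd γ η S (z + deg i + D))
        (fun A B a b hA hB => ih' (val i) (deg i) hi.1 hi.2 A B a b hA hB) hA hB
      refine le_trans h1 ?_
      have e1 : a + b + (e : ℤ) + (deg i : ℤ) + (D : ℤ) = a + b + e + ((deg i + D : ℕ) : ℤ) := by
        push_cast; ring
      rw [e1, ← mul_assoc]
      refine mul_le_mul_of_nonneg_right ?_ (bnd_nonneg hη _)
      have h2 : 2 * κ ^ (deg i + 2 * D) ≤ κ ^ (e + 2 * (deg i + D)) := by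
        calc 2 * κ ^ (deg i + 2 * D) ≤ κ ^ τ * κ ^ (deg i + 2 * D) :=
              mul_le_mul_of_nonneg_right hκ (by positivity)
          _ = κ ^ (τ + (deg i + 2 * D)) := by rw [← pow_add]
          _ ≤ _ := pow_le_pow_right₀ hκ1 (by omega)
      linarith

lemma typeB (hη : 1 ≤ η) (hγ : ∀ e, γ e = 2 * τ ∨ γ e = -(2 * τ - 1))
    {ι : Type*} (val : ι → MvPolynomial E K) (deg : ι → ℕ) (s : Multiset ι)
    (hs : ∀ i ∈ s, (val i).IsHomogeneous (deg i) ∧ deg i ≤ 1) :
    ∀ t : ℕ, t ≤ (s.map deg).sum → ∀ (R A B : MvPolynomial E K) (a b : ℤ), Lo γ A a → Hi γ B b →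
        meas γ η S (A * B * ((s.map val).prod * R)) ≤
          2 ^ (t + 1) * bnd γ η S (a + b + t * (4 * τ - 2)) := by
  have h0 : ∀ (R A B : MvPolynomial E K) (a b : ℤ), Lo γ A a → Hi γ B b →
      meas γ η S (A * B * R) ≤ 2 ^ (0 + 1) * bnd γ η S (a + b + (0 : ℕ) * (4 * τ - 2)) := by
    intro R A B a b hA hB
    simpa using meas_any (S := S) hη (res_zero R) hA hB
  induction s using Multiset.induction_on with
  | empty =>
    intro t ht R A B a b hA hB
    obtain rfl : t = 0 := by simpa using ht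
    exact h0 _ A B a b hA hB
  | cons i s ih =>
    intro t ht R A B a b hA hB
    have hi := hs i (Multiset.mem_cons_self _ _)
    have ih' := ih fun j hj => hs j (Multiset.mem_cons_of_mem hj)
    simp only [Multiset.map_cons, Multiset.prod_cons, Multiset.sum_cons] at ht ⊢
    rcases t with _ | t
    · exact h0 _ A B a b hA hB
    · by_cases hd : deg i = 0
      · have := ih' (t + 1) (by omega) (val i * R) A B a b hA hB
        rwa [show (s.map val).prod * (val i * R) = val i * (s.map val).prod * R by ring] at this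
      · have hd1 : deg i = 1 := by omega
        have h1 := meas_split (R := (s.map val).prod * R) hη (res_lin hγ (hd1 ▸ hi.1))
          (fun z => 2 ^ (t + 1) * bnd γ η S (z + t * (4 * τ - 2)))
          (fun A B a b hA hB => ih' t (by omega) R A B a b hA hB) hA hB
        rw [mul_assoc (val i)]
        refine le_trans h1 (le_of_eq ?_)
        rw [show a + b + (4 * (τ : ℤ) - 2) + t * (4 * τ - 2) =
          a + b + ((t + 1 : ℕ) : ℤ) * (4 * τ - 2) by push_cast; ring]
        ring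

omit [Fintype E] [DecidableEq E] in
lemma isHomogeneous_multiset_prod {ι : Type*} (val : ι → MvPolynomial E K) (deg : ι → ℕ)
    (s : Multiset ι) (hs : ∀ i ∈ s, (val i).IsHomogeneous (deg i)) :
    ((s.map val).prod).IsHomogeneous (s.map deg).sum := by
  induction s using Multiset.induction_on with
  | empty => simpa using isHomogeneous_one E K
  | cons i s ih =>
    simp only [Multiset.map_cons, Multiset.prod_cons, Multiset.sum_cons]
    exact (hs i (Multiset.mem_cons_self _ _)).mul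
      (ih fun j hj => hs j (Multiset.mem_cons_of_mem hj))

omit [Fintype E] [DecidableEq E] in
lemma isHomogeneous_smul {Q : MvPolynomial E K} {d : ℕ} (h : Q.IsHomogeneous d) (c : K) :
    (c • Q).IsHomogeneous d := by
  rw [smul_eq_C_mul]; exact h.C_mul c

/-- the measure of the output of a homogeneous circuit -/
theorem meas_circuit (hη : 1 ≤ η) (hγ : ∀ e, γ e = 2 * τ ∨ γ e = -(2 * τ - 1)) {κ : ℝ}
    (hκ1 : 1 ≤ κ) (hκ : 2 ≤ κ ^ τ) (Γ : Circuit K E) (hΓ : Γ.Homogeneous) {d : ℕ}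
    (hd : Γ.output.IsHomogeneous d) (hne : Γ.output ≠ 0) (hτ : (d : ℤ) ≤ τ * (4 * τ - 2)) :
    meas γ η S Γ.output ≤
      (Γ.size : ℝ) ^ 2 * (2 * κ ^ (2 * d) + 2 ^ (τ + 1)) * bnd γ η S d := by
  obtain ⟨d1, d3, d5, h1, h3, h5⟩ := hΓ
  have v0 : ∀ i, (Γ.val0 i).IsHomogeneous (Γ.deg0 i) := by
    intro i
    unfold Circuit.val0 Circuit.deg0
    rcases Γ.leaf i with x | c
    · exact isHomogeneous_X K x
    · exact isHomogeneous_C E c
  have v1 : ∀ g, (Γ.val1 g).IsHomogeneous (d1 g) := fun g =>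
    IsHomogeneous.sum _ _ _ fun i hi => isHomogeneous_smul (h1 g i hi ▸ v0 i) _
  have v2 : ∀ g, (Γ.val2 g).IsHomogeneous ((Γ.in2 g).map d1).sum := fun g =>
    isHomogeneous_multiset_prod _ _ _ fun i _ => v1 i
  have v3 : ∀ g, (Γ.val3 g).IsHomogeneous (d3 g) := fun g =>
    IsHomogeneous.sum _ _ _ fun i hi => isHomogeneous_smul (h3 g i hi ▸ v2 i) _
  have v4 : ∀ g, (Γ.val4 g).IsHomogeneous ((Γ.in4 g).map d3).sum := fun g =>
    isHomogeneous_multiset_prod _ _ _ fun i _ => v3 i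
  have v5 : Γ.output.IsHomogeneous d5 :=
    IsHomogeneous.sum _ _ _ fun i hi => isHomogeneous_smul (h5 i hi ▸ v4 i) _
  obtain rfl : d = d5 := hd.inj_right v5 hne
  have hb := bnd_nonneg (γ := γ) (S := S) hη d
  have hsz2 : (Γ.n2 : ℝ) ≤ Γ.size := by
    exact_mod_cast (by unfold Circuit.size; omega : Γ.n2 ≤ Γ.size)
  have hsz4 : (Γ.n4 : ℝ) ≤ Γ.size := by
    exact_mod_cast (by unfold Circuit.size; omega : Γ.n4 ≤ Γ.size)
  have hsz1 : (1 : ℝ) ≤ Γ.size := by
    exact_mod_cast (by unfold Circuit.size; omega : 1 ≤ Γ.size)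
  have hκp : 0 ≤ 2 * κ ^ (2 * d) := by positivity
  have h2p : (0 : ℝ) ≤ 2 ^ (τ + 1) := by positivity
  have key : ∀ g ∈ Γ.in5, meas γ η S (Γ.val4 g) ≤
      Γ.size * (2 * κ ^ (2 * d) + 2 ^ (τ + 1)) * bnd γ η S d := by
    intro g hg
    by_cases hA : ∀ h ∈ Γ.in4 g, d3 h ≤ τ
    · have := typeA (S := S) hη hγ hκ1 hκ Γ.val3 d3 (Γ.in4 g) (fun i hi => ⟨v3 i, hA i hi⟩) 1 0
        (isHomogeneous_one E K) (Nat.zero_le _) 1 1 0 0 lo_one hi_one
      simp only [one_mul, zero_add, Nat.cast_zero, h5 g hg] at this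
      refine le_trans this (mul_le_mul_of_nonneg_right ?_ hb)
      nlinarith
    · push Not at hA
      obtain ⟨h₀, hh₀, hlt⟩ := hA
      obtain ⟨s, hs⟩ := Multiset.exists_cons_of_mem hh₀
      have e1 : Γ.val4 g = ∑ u ∈ Γ.in3 h₀, Γ.c3 h₀ u • (Γ.val2 u * (s.map Γ.val3).prod) := by
        unfold Circuit.val4
        rw [hs, Multiset.map_cons, Multiset.prod_cons]
        conv_lhs => rw [Circuit.val3]
        rw [sum_mul]
        exact sum_congr rfl fun u _ => smul_mul_assoc _ _ _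
      rw [e1]
      have k2 : ∀ u ∈ Γ.in3 h₀, meas γ η S (Γ.val2 u * (s.map Γ.val3).prod) ≤
          2 ^ (τ + 1) * bnd γ η S d := by
        intro u hu
        by_cases hz : ∀ v ∈ Γ.in2 u, d1 v ≤ 1
        · have := typeB (S := S) hη hγ Γ.val1 d1 (Γ.in2 u) (fun i hi => ⟨v1 i, hz i hi⟩) τ
            (by rw [h3 h₀ u hu]; omega) (s.map Γ.val3).prod 1 1 0 0 lo_one hi_one
          simp only [one_mul, zero_add] at this
          exact le_trans this (mul_le_mul_of_nonneg_left (bnd_anti hη hτ) h2p)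
        · push Not at hz
          obtain ⟨v, hv, hv1⟩ := hz
          have hemp : Γ.in1 v = ∅ := by
            rw [eq_empty_iff_forall_notMem]
            intro i hi
            have := h1 v i hi
            unfold Circuit.deg0 at this
            rcases hl : Γ.leaf i with x | c <;> rw [hl] at this <;> simp at this <;> omega
          have hz1 : Γ.val1 v = 0 := by simp [Circuit.val1, hemp]
          have hz2 : Γ.val2 u = 0 := by
            unfold Circuit.val2
            exact Multiset.prod_eq_zero (Multiset.mem_map.2 ⟨v, hv, hz1⟩)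
          rw [hz2, zero_mul, meas_zero]
          positivity
      refine le_trans (meas_sum_le hη _ _ _ _ k2) ?_
      have hc : ((Γ.in3 h₀).card : ℝ) ≤ Γ.size := by
        refine le_trans ?_ hsz2
        exact_mod_cast (card_le_univ _).trans (Fintype.card_fin _).le
      rw [← mul_assoc]
      refine mul_le_mul_of_nonneg_right ?_ hb
      nlinarith
  refine le_trans (meas_sum_le hη _ _ _ _ key) ?_
  have hc : (Γ.in5.card : ℝ) ≤ Γ.size := by
    refine le_trans ?_ hsz4
    exact_mod_cast (card_le_univ _).trans (Fintype.card_fin _).le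
  have : 0 ≤ Γ.size * (2 * κ ^ (2 * d) + 2 ^ (τ + 1)) * bnd γ η S d := by positivity
  calc _ ≤ Γ.size * (Γ.size * (2 * κ ^ (2 * d) + 2 ^ (τ + 1)) * bnd γ η S d) :=
        mul_le_mul_of_nonneg_right hc this
    _ = _ := by ring

end

end Vale.Agent.P346
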