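import Mathlib
import Vale.Agent.P346.Moments
import Vale.Agent.P346.Terms

namespace Vale.Agent.P346
open Matrix Finset MvPolynomial

section
variable {V : Type} [Fintype V] [DecidableEq V] {d : ℕ}

/-- the monomial of a path -/
noncomputable def pm (p : Fin (d + 1) → V) : (Fin d × V × V) →₀ ℕ :=
  ∑ j : Fin d, Finsupp.single (j, p j.castSucc, p j.succ) 1

omit [Fintype V] in
lemma pm_apply (p : Fin (d + 1) → V) (j : Fin d) (f : V × V) :
    pm p (j, f) = if f = (p j.castSucc, p j.succ) then 1 else 0 := by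
  rw [pm, Finsupp.finsetSum_apply, sum_eq_single j]
  · simp only [Finsupp.single_apply, Prod.mk.injEq, true_and, eq_comm]
  · intro i _ hi
    simp [hi]
  · simp

/-- layer weights on the variables -/
def lw (V : Type) (d τ : ℕ) : Fin d × V × V → ℤ := fun e => gam τ e.1

lemma wtm_pm (τ : ℕ) (p : Fin (d + 1) → V) : wtm (lw V d τ) (pm p) = pref τ d := by
  rw [wtm, Fintype.sum_prod_type, ← sum_gam, ← Fin.sum_univ_eq_sum_range (fun i => gam τ i) d]
  refine sum_congr rfl fun j _ => ?_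
  simp [pm_apply, lw]

lemma sum_four_paths (o : V) (G : (Fin (d + 1) → V × V × V × V) → ℝ) :
    ∑ x ∈ paths V d o o ×ˢ paths V d o o ×ˢ paths V d o o ×ˢ paths V d o o,
      G (fun i => (x.1 i, x.2.1 i, x.2.2.1 i, x.2.2.2 i)) =
      ∑ q ∈ paths (V × V × V × V) d (o, o, o, o) (o, o, o, o), G q := by
  refine sum_nbij' (fun x i => (x.1 i, x.2.1 i, x.2.2.1 i, x.2.2.2 i))
    (fun q => (fun i => (q i).1, fun i => (q i).2.1, fun i => (q i).2.2.1, fun i => (q i).2.2.2))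
    ?_ ?_ ?_ ?_ ?_
  · intro x hx
    simp only [paths, mem_product, mem_filter, mem_univ, true_and, Prod.mk.injEq] at hx ⊢
    tauto
  · intro q hq
    simp only [paths, mem_product, mem_filter, mem_univ, true_and] at hq ⊢
    simp [hq.1, hq.2]
  · intro x _; rfl
  · intro q _; rfl
  · intro x _; rfl

end

lemma imm_eq (K : Type*) [Field K] {w : ℕ} (hw : 0 < w) (d : ℕ) :
    imm K w d = ∑ p ∈ paths (Fin w) d ⟨0, hw⟩ ⟨0, hw⟩, monomial (pm p) (1 : K) := by
  unfold imm paths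
  refine sum_congr ?_ fun p _ => ?_
  · ext p
    simp [Fin.ext_iff]
  · rw [pm, monomial_sum_one]; rfl

lemma op_imm (K : Type*) [Field K] {w : ℕ} (hw : 0 < w) (d : ℕ) :
    op K (imm K w d) = sumMon K (paths (Fin w) d ⟨0, hw⟩ ⟨0, hw⟩) pm := by
  rw [imm_eq K hw, map_sum, sumMon]
  simp [op_monomial]

lemma imm_homogeneous (K : Type*) [Field K] (w d : ℕ) : (imm K w d).IsHomogeneous d := by
  refine IsHomogeneous.sum _ _ _ fun p _ => ?_
  have := IsHomogeneous.prod univ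
    (fun j : Fin d => (X (j, p j.castSucc, p j.succ) : MvPolynomial (Fin d × Fin w × Fin w) K))
    (fun _ => 1) fun j _ => isHomogeneous_X K _
  simpa using this

theorem meas_imm_lower (K : Type*) [Field K] [CharZero K] {w : ℕ} (hw : 0 < w) (d τ : ℕ) {η : ℝ}
    (hη : 1 ≤ η) :
    (w : ℝ) ^ (2 * d) * partZ (lw (Fin w) (d + 1) τ) η ≤
      meas (lw (Fin w) (d + 1) τ) η (pref τ (d + 1)) (imm K w (d + 1)) *
        ((1 + η ^ (8 * τ)) * ((w : ℝ) ^ 2 + w * η ^ (8 * τ)) ^ d) := by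
  have hη0 : 0 < η := by linarith
  set o : Fin w := ⟨0, hw⟩
  set γ := lw (Fin w) (d + 1) τ with hγ
  set s := paths (Fin w) (d + 1) o o with hs
  let ω : ℕ → ℝ := fun j => η ^ (4 * gam τ j)
  have hω : ∀ j, 0 < ω j := fun j => zpow_pos hη0 _
  have hmain := meas_lower (K := K) γ hη (pref τ (d + 1)) s pm (fun p _ => wtm_pm τ p) _
    (op_imm K hw (d + 1))
  rw [first_moment γ hη0, second_moment γ hη0] at hmain
  set N := Fintype.card (Fin w × Fin w)
  set Cp : ℝ := ∏ j : Fin (d + 1), (1 + ω j) with hCp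
  have hCp0 : 0 < Cp := prod_pos fun j _ => by have := hω j; linarith
  have hZ : partZ γ η = ∏ j : Fin (d + 1), (1 + ω j) ^ N := by
    rw [partZ_eq γ hη0, Fintype.prod_prod_type]
    refine prod_congr rfl fun j _ => ?_
    simp only [hγ, lw, prod_const, card_univ]
    rfl
  have hZ0 : 0 < partZ γ η := partZ_pos hη
  set Z := partZ γ η
  set F1 := ∑ p ∈ s, ∏ e, f1 (η ^ (4 * γ e)) (pm p e) with hF1
  set F2 := ∑ x ∈ s ×ˢ s ×ˢ s ×ˢ s, ∏ e, f4 (η ^ (4 * γ e)) (pm x.1 e) (pm x.2.1 e)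
    (pm x.2.2.1 e) (pm x.2.2.2 e) with hF2
  have e1 : Cp * F1 = (w : ℝ) ^ d * Z := by
    have : ∀ p ∈ s, Cp * ∏ e, f1 (η ^ (4 * γ e)) (pm p e) = Z := by
      intro p _
      rw [hZ, Fintype.prod_prod_type, hCp, ← prod_mul_distrib]
      refine prod_congr rfl fun j _ => ?_
      simp only [pm_apply]
      exact layer1 (ω j) _
    rw [hF1, mul_sum, sum_congr rfl this, sum_const, nsmul_eq_mul, hs, card_paths]
    simp
  set θ : ℝ := η ^ (8 * τ) with hθ
  have hθ1 : 1 ≤ θ := one_le_pow₀ hη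
  have hθz : θ = η ^ (8 * (τ : ℤ)) := by rw [hθ, ← zpow_natCast]; push_cast; rfl
  have hprod : ∀ j, ∏ i ∈ range j, ω i = η ^ (4 * pref τ j) := by
    intro j
    rw [← sum_gam, mul_sum, zpow_sum' hη0.ne']
  have hT := transfer_bound ω hω θ hθ1
    (fun j => by
      rw [hprod, hθz]
      exact zpow_le_zpow_right₀ hη (by have := pref_bound τ j; omega))
    (fun j => by
      rw [hprod, hθz, ← zpow_add₀ hη0.ne']
      exact one_le_zpow₀ hη (by have := pref_bound τ j; omega)) o d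
  simp only [Fintype.card_fin] at hT
  have e2 : Cp ^ 2 * F2 ≤ Z * ((1 + θ) * ((w : ℝ) ^ 2 + w * θ) ^ d) := by
    refine le_trans ?_ (mul_le_mul_of_nonneg_left hT hZ0.le)
    rw [← pathSum, ← sum_four_paths o (fun q => ∏ j : Fin (d + 1),
      ker4 (Fin w) ω j (q j.castSucc) (q j.succ)), hF2, mul_sum, mul_sum]
    refine sum_le_sum fun x _ => ?_
    rw [hZ, Fintype.prod_prod_type, hCp, ← prod_pow, ← prod_mul_distrib, ← prod_mul_distrib]
    refine prod_le_prod (fun j _ => ?_) (fun j _ => ?_)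
    · refine mul_nonneg (by positivity) (prod_nonneg fun f _ => ?_)
      unfold f4
      positivity
    · simp only [pm_apply]
      refine le_trans (layer4 (ω j) (hω j).le _ _ _ _) (le_of_eq ?_)
      congr 1
      simp only [ker4, of_apply, pI, pII, Prod.mk.injEq, ite_zero_mul_ite_zero, mul_one]
      congr 2
      · apply propext; tauto
      · congr 1
        apply propext; tauto
  set μ := meas γ η (pref τ (d + 1)) (imm K w (d + 1))
  have hμ0 : 0 ≤ μ := sum_nonneg fun g _ => by positivity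
  have h3 : ((w : ℝ) ^ d * Z) ^ 2 ≤ μ * (Z * ((1 + θ) * ((w : ℝ) ^ 2 + w * θ) ^ d)) := by
    rw [← e1, mul_pow]
    calc Cp ^ 2 * F1 ^ 2 ≤ Cp ^ 2 * (μ * F2) := mul_le_mul_of_nonneg_left hmain (by positivity)
      _ = μ * (Cp ^ 2 * F2) := by ring
      _ ≤ _ := mul_le_mul_of_nonneg_left e2 hμ0
  refine le_of_mul_le_mul_left ?_ hZ0
  calc Z * ((w : ℝ) ^ (2 * d) * Z) = ((w : ℝ) ^ d * Z) ^ 2 := by ring
    _ ≤ _ := h3
    _ = _ := by ring

lemma card_image_gw {E : Type} [Fintype E] [DecidableEq E] (γ : E → ℤ) (τ : ℕ)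
    (hγ : ∀ e, γ e = 2 * τ ∨ γ e = -(2 * τ - 1)) (hτ : 1 ≤ τ) :
    (univ.image (gw γ)).card ≤ 4 * τ * Fintype.card E + 1 := by
  have : univ.image (gw γ) ⊆ Icc (-(2 * τ * Fintype.card E : ℤ)) (2 * τ * Fintype.card E) := by
    intro g hg
    obtain ⟨A, -, rfl⟩ := mem_image.1 hg
    have h1 : |gw γ A| ≤ 2 * τ * Fintype.card E := by
      refine le_trans (abs_sum_le_sum_abs _ _) ?_
      calc ∑ e, |γ e * (A e).toNat| ≤ ∑ _e : E, (2 * τ : ℤ) := by
            refine sum_le_sum fun e _ => ?_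
            rw [abs_le]
            rcases hγ e with h | h <;> cases A e <;> simp [h] <;> omega
        _ = _ := by simp [mul_comm]
    exact mem_Icc.2 (abs_le.1 h1)
  refine le_trans (card_le_card this) ?_
  rw [Int.card_Icc]
  have : (2 * τ * Fintype.card E : ℤ) + 1 - -(2 * τ * Fintype.card E) =
      ((4 * τ * Fintype.card E + 1 : ℕ) : ℤ) := by push_cast; ring
  rw [this, Int.toNat_natCast]

/-- the finite form of the lower bound -/
theorem size_lower (K : Type*) [Field K] [CharZero K] (d τ : ℕ) (hτ : 1 ≤ τ) {η κ : ℝ}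
    (hη : 1 ≤ η) (hκ1 : 1 ≤ κ) (hκ : 2 ≤ κ ^ τ) (hdτ : ((d + 1 : ℕ) : ℤ) ≤ τ * (4 * τ - 2))
    (Γ : Circuit K (Fin (d + 1) × Fin (d + 1) × Fin (d + 1))) (hΓ : Γ.Homogeneous)
    (hout : Γ.output = imm K (d + 1) (d + 1)) :
    η ^ (d + 1) ≤ (Γ.size : ℝ) ^ 2 * (2 * κ ^ (2 * (d + 1)) + 2 ^ (τ + 1)) *
      (4 * τ * (d + 1) ^ 3 + 1) * η ^ (4 * τ) * (1 + η ^ (8 * τ)) *
        (1 + η ^ (8 * τ) / (d + 1)) ^ d := by
  have hη0 : 0 < η := by linarith
  have h1 := meas_imm_lower K (Nat.succ_pos d) d τ hη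
  set γ := lw (Fin (d + 1)) (d + 1) τ with hγ
  have hγc : ∀ e, γ e = 2 * τ ∨ γ e = -(2 * τ - 1) := fun e => gam_cases τ _
  have hZ0 : 0 < partZ γ η := partZ_pos hη
  set θ : ℝ := η ^ (8 * τ) with hθ
  have hθ0 : 0 < θ := by positivity
  set n : ℝ := ((d + 1 : ℕ) : ℝ) with hn
  have hn0 : 0 < n := by rw [hn]; positivity
  have hne : imm K (d + 1) (d + 1) ≠ 0 := by
    intro h
    rw [h, meas_zero, zero_mul] at h1
    have : 0 < n ^ (2 * d) * partZ γ η := by positivity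
    linarith
  have h2 := meas_circuit (S := pref τ (d + 1)) hη hγc hκ1 hκ Γ hΓ
    (hout ▸ imm_homogeneous K (d + 1) (d + 1)) (hout ▸ hne) hdτ
  rw [hout] at h2
  have h3 : ((univ.image (gw γ)).card : ℝ) ≤ 4 * τ * n ^ 3 + 1 := by
    have := card_image_gw γ τ hγc hτ
    simp only [Fintype.card_prod, Fintype.card_fin] at this
    rw [hn]
    have e : 4 * τ * ((d + 1) * ((d + 1) * (d + 1))) + 1 = 4 * τ * (d + 1) ^ 3 + 1 := by ring
    rw [e] at this
    exact_mod_cast this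
  have h4 : η ^ (-(((d + 1 : ℕ) : ℤ) + 2 * pref τ (d + 1))) * η ^ (d + 1) ≤ η ^ (4 * τ) := by
    rw [← zpow_natCast η (d + 1), ← zpow_natCast η (4 * τ), ← zpow_add₀ hη0.ne']
    refine zpow_le_zpow_right₀ hη ?_
    have := pref_bound τ (d + 1)
    push_cast
    omega
  set Z := partZ γ η
  set A := (Γ.size : ℝ) ^ 2 * (2 * κ ^ (2 * (d + 1)) + 2 ^ (τ + 1)) with hA
  have hA0 : 0 ≤ A := by positivity
  have e5 : (n ^ 2 + n * θ) ^ d = n ^ (2 * d) * (1 + θ / n) ^ d := by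
    rw [pow_mul, ← mul_pow]
    congr 1
    field_simp
  have hT0 : 0 ≤ (1 + θ) * (n ^ 2 + n * θ) ^ d := by positivity
  have h6 : n ^ (2 * d) * Z ≤ A * ((4 * τ * n ^ 3 + 1) * Z *
      η ^ (-(((d + 1 : ℕ) : ℤ) + 2 * pref τ (d + 1)))) * ((1 + θ) * (n ^ 2 + n * θ) ^ d) := by
    refine le_trans h1 (mul_le_mul_of_nonneg_right (le_trans h2 ?_) hT0)
    refine mul_le_mul_of_nonneg_left ?_ hA0
    unfold bnd
    refine mul_le_mul_of_nonneg_right (mul_le_mul_of_nonneg_right h3 hZ0.le) (by positivity)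
  have h7 : 1 ≤ A * (4 * τ * n ^ 3 + 1) * η ^ (-(((d + 1 : ℕ) : ℤ) + 2 * pref τ (d + 1))) *
      ((1 + θ) * (1 + θ / n) ^ d) := by
    have hpos : 0 < n ^ (2 * d) * Z := by positivity
    refine le_of_mul_le_mul_left ?_ hpos
    rw [mul_one]
    refine le_trans h6 (le_of_eq ?_)
    rw [e5]; ring
  have hn' : ((d : ℝ) + 1) = n := by rw [hn]; push_cast; rfl
  rw [hn']
  calc η ^ (d + 1) = 1 * η ^ (d + 1) := (one_mul _).symm
    _ ≤ (A * (4 * τ * n ^ 3 + 1) * η ^ (-(((d + 1 : ℕ) : ℤ) + 2 * pref τ (d + 1))) *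
      ((1 + θ) * (1 + θ / n) ^ d)) * η ^ (d + 1) := mul_le_mul_of_nonneg_right h7 (by positivity)
    _ = (A * (4 * τ * n ^ 3 + 1) * ((1 + θ) * (1 + θ / n) ^ d)) *
      (η ^ (-(((d + 1 : ℕ) : ℤ) + 2 * pref τ (d + 1))) * η ^ (d + 1)) := by ring
    _ ≤ (A * (4 * τ * n ^ 3 + 1) * ((1 + θ) * (1 + θ / n) ^ d)) * η ^ (4 * τ) :=
      mul_le_mul_of_nonneg_left h4 (by positivity)
    _ = _ := by ring

end Vale.Agent.P346
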