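import Mathlib
import Vale.Agent.P346.Lower

/-! A triangular family of leading monomials, over an arbitrary field. -/

namespace Vale.Agent.P346
open Matrix Finset MvPolynomial Function

lemma card_le_rank_tri {m : Type} [Fintype m] [DecidableEq m] {K : Type*} [Field K]
    {L : Type} [LinearOrder L] (M : Matrix m m K) (s : Finset m) (c : m → m) (Ψ : m → L)
    (h1 : ∀ i ∈ s, M i (c i) ≠ 0)
    (h2 : ∀ i ∈ s, ∀ k ∈ s, M k (c i) ≠ 0 → k = i ∨ Ψ i < Ψ k) : s.card ≤ M.rank := by
  classical
  have hli : LinearIndependent K (fun i : s => M.col (c i)) := by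
    rw [Fintype.linearIndependent_iff]
    intro g hg
    by_contra hne
    push Not at hne
    obtain ⟨i₀, hi₀⟩ := hne
    obtain ⟨i, hi, hmin⟩ := exists_min_image (univ.filter fun i : s => g i ≠ 0) (fun i => Ψ i)
      ⟨i₀, by simpa using hi₀⟩
    have hi' : g i ≠ 0 := by simpa using hi
    have h3 := congrFun hg i
    simp only [Finset.sum_apply, Pi.smul_apply, col_apply, smul_eq_mul, Pi.zero_apply] at h3
    rw [sum_eq_single i] at h3
    · exact mul_ne_zero hi' (h1 i i.2) h3
    · intro k _ hk
      by_contra h4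
      rcases h2 k k.2 i i.2 (right_ne_zero_of_mul h4) with h5 | h5
      · exact hk (Subtype.ext h5.symm)
      · exact absurd (hmin k (by simpa using left_ne_zero_of_mul h4)) (not_le.2 h5)
    · simp
  rw [rank_eq_finrank_span_cols, ← Fintype.card_coe, ← finrank_span_eq_card hli]
  refine Submodule.finrank_mono (Submodule.span_mono ?_)
  rintro _ ⟨i, rfl⟩
  exact ⟨_, rfl⟩

section
variable {w : ℕ}

/-- the number of a member of a set of vertices -/
noncomputable def idx (V : Finset (Fin w)) (u : Fin w) : ℕ :=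
  if h : u ∈ V then (V.equivFin ⟨u, h⟩ : ℕ) else 0

/-- the initial run of the block of length `l` starting at `b` -/
def kids (l b : ℕ) (r : Fin w → Bool) : Finset (Fin w) :=
  univ.filter fun v => (b ≤ v ∧ (v : ℕ) < b + l) ∧ ∀ v' : Fin w, b ≤ v' → v' ≤ v → r v' = true

/-- the next generation -/
noncomputable def nextG (l : ℕ) (V : Finset (Fin w)) (c : Fin w → Fin w → Bool) : Finset (Fin w) :=
  V.biUnion fun u => kids l (idx V u * l) (c u)

/-- the generations -/
noncomputable def gen {D : ℕ} (l : ℕ) (o : Fin w) (B : Fin D → Fin w → Fin w → Bool) :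
    ℕ → Finset (Fin w)
  | 0 => {o}
  | j + 1 => if h : j < D then nextG l (gen l o B j) (B ⟨j, h⟩) else ∅

lemma gen_congr {D : ℕ} (l : ℕ) (o : Fin w) (B B' : Fin D → Fin w → Fin w → Bool) (j : ℕ)
    (h : ∀ i : Fin D, (i : ℕ) < j → B i = B' i) : gen l o B j = gen l o B' j := by
  induction j with
  | zero => rfl
  | succ j ih =>
    simp only [gen]
    split_ifs with hj
    · rw [ih fun i hi => h i (by omega), h ⟨j, hj⟩ (by simp)]
    · rfl

/-- the curried form of a set of edges -/
def cur {D : ℕ} (B : Fin D × Fin w × Fin w → Bool) : Fin D → Fin w → Fin w → Bool :=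
  fun j u v => B (j, u, v)

/-- the potential -/
noncomputable def pot {D : ℕ} (l : ℕ) (o : Fin w) (B : Fin D × Fin w × Fin w → Bool) :
    Fin D → ℕ :=
  fun j => ∑ f : Fin w × Fin w,
    (B (j, f)).toNat * if idx (gen l o (cur B) j) f.1 * l ≤ f.2 then (f.2 : ℕ) else w

/-- survival up to the last layer -/
def good {d : ℕ} (l : ℕ) (o : Fin w) (B : Fin (d + 1) → Fin w → Fin w → Bool) : Prop :=
  ∃ u ∈ gen l o B d, B (Fin.last d) u o = true

lemma gen_path {D : ℕ} (l : ℕ) (o : Fin w) (B : Fin D → Fin w → Fin w → Bool) (j : ℕ) :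
    ∀ u ∈ gen l o B j, ∃ p : ℕ → Fin w, p 0 = o ∧ p j = u ∧ ∀ i : Fin D, (i : ℕ) < j →
      p (i + 1) ∈ kids l (idx (gen l o B i) (p i) * l) (B i (p i)) := by
  induction j with
  | zero =>
    intro u hu
    exact ⟨fun _ => o, rfl, (mem_singleton.1 hu).symm, fun i hi => absurd hi (by omega)⟩
  | succ j ih =>
    intro u hu
    simp only [gen] at hu
    split_ifs at hu with hj
    · obtain ⟨u', hu', hk⟩ := mem_biUnion.1 hu
      obtain ⟨p, h0, h1, h2⟩ := ih u' hu'
      refine ⟨update p (j + 1) u, by rw [update_of_ne (by omega), h0], by simp, fun i hi => ?_⟩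
      rw [update_of_ne (by omega : (i : ℕ) ≠ j + 1)]
      by_cases hij : (i : ℕ) = j
      · obtain ⟨i, hi'⟩ := i
        obtain rfl : i = j := hij
        simp only [update_self, h1]
        exact hk
      · rw [update_of_ne (by omega)]
        exact h2 i (by omega)
    · simp at hu

/-- a path along the generations -/
def valid {d : ℕ} (l : ℕ) (o : Fin w) (B : Fin (d + 1) → Fin w → Fin w → Bool)
    (p : Fin (d + 2) → Fin w) : Prop :=
  p ∈ paths (Fin w) (d + 1) o o ∧ (∀ i : Fin (d + 1), B i (p i.castSucc) (p i.succ) = true) ∧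
    ∀ i : Fin (d + 1), (i : ℕ) < d →
      p i.succ ∈ kids l (idx (gen l o B i) (p i.castSucc) * l) (B i (p i.castSucc))

lemma good_valid {d : ℕ} {l : ℕ} {o : Fin w} {B : Fin (d + 1) → Fin w → Fin w → Bool}
    (h : good l o B) : ∃ p, valid l o B p := by
  obtain ⟨u, hu, hB⟩ := h
  obtain ⟨p, h0, h1, h2⟩ := gen_path l o B d u hu
  have e1 : ∀ i : Fin (d + 1), update p (d + 1) o (i.castSucc : Fin (d + 2)) = p i := fun i => by
    rw [update_of_ne (by have := i.2; simp; omega)]; rfl
  have e2 : ∀ i : Fin (d + 1), (i : ℕ) < d → update p (d + 1) o (i.succ : Fin (d + 2)) = p (i + 1) :=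
    fun i hi => by rw [update_of_ne (by simp; omega)]; rfl
  refine ⟨fun i => update p (d + 1) o i, ?_, fun i => ?_, fun i hi => ?_⟩
  · simp only [paths, mem_filter, mem_univ, true_and]
    exact ⟨by rw [update_of_ne (by simp)]; exact h0, by simp⟩
  · simp only [e1]
    by_cases hi : (i : ℕ) < d
    · rw [e2 i hi]
      have := h2 i hi
      simp only [kids, mem_filter] at this
      exact this.2.2 _ this.2.1.1 le_rfl
    · obtain rfl : i = Fin.last d := Fin.ext (by have := i.2; simp; omega)
      simpa [h1] using hB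
  · simp only [e1, e2 i hi]
    exact h2 i hi

lemma pot_lt {d : ℕ} {l : ℕ} {o : Fin w} {A B B' : Fin (d + 1) × Fin w × Fin w → Bool}
    {p p' : Fin (d + 2) → Fin w} (hp : valid l o (cur B) p)
    (hp' : p' ∈ paths (Fin w) (d + 1) o o)
    (hA : ∀ e, pm p e + (A e).toNat = (B e).toNat)
    (hA' : ∀ e, pm p' e + (A e).toNat = (B' e).toNat) (hne : p' ≠ p) :
    toLex (pot l o B) < toLex (pot l o B') := by
  obtain ⟨hp1, -, hp3⟩ := hp
  simp only [paths, mem_filter, mem_univ, true_and] at hp1 hp'
  obtain ⟨j, hj, hmin⟩ := exists_min_image (univ.filter fun i => p' i ≠ p i) id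
    (by obtain ⟨i, hi⟩ := Function.ne_iff.1 hne; exact ⟨i, by simpa using hi⟩)
  have hj' : p' j ≠ p j := by simpa using hj
  have hlt : ∀ i, i < j → p' i = p i := fun i hi => by
    by_contra h
    exact absurd (hmin i (by simpa using h)) (not_le.2 hi)
  obtain ⟨i, rfl⟩ : ∃ i : Fin (d + 1), j = i.succ := by
    rcases Fin.eq_zero_or_eq_succ j with rfl | h
    · exact absurd (hp'.1.trans hp1.1.symm) hj'
    · exact h
  have hid : (i : ℕ) < d := by
    by_contra h
    obtain rfl : i = Fin.last d := Fin.ext (by have := i.2; simp; omega)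
    exact hj' (hp'.2.trans hp1.2.symm)
  have hu : p' i.castSucc = p i.castSucc := hlt _ Fin.castSucc_lt_succ
  have hlay : ∀ k : Fin (d + 1), k < i → ∀ f, B (k, f) = B' (k, f) := by
    intro k hk f
    have a1 := hA (k, f)
    have a2 := hA' (k, f)
    rw [pm_apply] at a1 a2
    rw [hlt k.castSucc (by rw [Fin.lt_def] at hk ⊢; simp; omega),
      hlt k.succ (Fin.succ_lt_succ_iff.2 hk)] at a2
    have a3 := a1.symm.trans a2
    revert a3
    cases B (k, f) <;> cases B' (k, f) <;> simp
  have hgen : ∀ k : Fin (d + 1), k ≤ i → gen l o (cur B) k = gen l o (cur B') k := fun k hk =>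
    gen_congr l o _ _ _ fun m hm => by
      funext u v
      exact hlay m (lt_of_lt_of_le (Fin.lt_def.2 hm) hk) (u, v)
  refine ⟨i, fun k hk => ?_, ?_⟩
  · show pot l o B k = pot l o B' k
    simp only [pot, ← hgen k hk.le, hlay k hk]
  · show pot l o B i < pot l o B' i
    simp only [pot, ← hgen i le_rfl, ← hA, ← hA', add_mul,
      sum_add_distrib, pm_apply, ite_mul, one_mul, zero_mul, sum_ite_eq', mem_univ, if_true, hu]
    refine Nat.add_lt_add_right ?_ _
    have hk := hp3 i hid
    simp only [kids, mem_filter, mem_univ, true_and] at hk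
    rw [if_pos hk.1.1]
    split_ifs with hb
    · by_contra hle
      have h1 := hk.2 _ hb (Fin.le_def.2 (not_lt.1 hle))
      have a1 := hA (i, p i.castSucc, p' i.succ)
      have a2 := hA' (i, p i.castSucc, p' i.succ)
      rw [pm_apply] at a1 a2
      rw [if_neg (by simpa using hj')] at a1
      rw [if_pos (by rw [hu])] at a2
      have a3 : (B (i, p i.castSucc, p' i.succ)).toNat = 1 := by
        have : B (i, p i.castSucc, p' i.succ) = true := h1
        rw [this]; rfl
      have a4 := Bool.toNat_le (B' (i, p i.castSucc, p' i.succ))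
      omega
    · exact (p i.succ).2

lemma mon_eq {E : Type} [Fintype E] {K : Type*} [Field K] (m : E →₀ ℕ) (B A : E → Bool) :
    mon K m B A = if ∀ e, m e + (A e).toNat = (B e).toNat then 1 else 0 := by
  classical
  simp only [mon, st, Nat.cast_ite, Nat.cast_one, Nat.cast_zero]
  rw [Fintype.prod_boole]

open Classical in
lemma meas_good (K : Type*) [Field K] (hw : 0 < w) (d τ l : ℕ) {η : ℝ} (hη : 1 ≤ η) :
    ∑ B, (if good l ⟨0, hw⟩ (cur B) then η ^ (4 * gw (lw (Fin w) (d + 1) τ) B) else 0) ≤
      η ^ (4 * pref τ (d + 1)) *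
        meas (lw (Fin w) (d + 1) τ) η (pref τ (d + 1)) (imm K w (d + 1)) := by
  have hη0 : 0 < η := by linarith
  set o : Fin w := ⟨0, hw⟩
  set γ := lw (Fin w) (d + 1) τ with hγ
  set S := pref τ (d + 1) with hS
  have hex : ∀ B : Fin (d + 1) × Fin w × Fin w → Bool, ∃ (p : Fin (d + 2) → Fin w)
      (A : Fin (d + 1) × Fin w × Fin w → Bool), good l o (cur B) →
      valid l o (cur B) p ∧ ∀ e, pm p e + (A e).toNat = (B e).toNat := by
    intro B
    by_cases h : good l o (cur B)
    · obtain ⟨p, hp⟩ := good_valid h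
      refine ⟨p, fun e => B e && decide (pm p e = 0), fun _ => ⟨hp, fun ⟨j, f⟩ => ?_⟩⟩
      simp only [pm_apply]
      split_ifs with hf
      · have : B (j, f) = true := by rw [hf]; exact hp.2.1 j
        simp [this]
      · simp
    · exact ⟨fun _ => o, B, fun h' => absurd h' h⟩
  choose p c hc using hex
  have hgw : ∀ B, good l o (cur B) → gw γ B = gw γ (c B) + S := by
    intro B hB
    have h1 : mon K (pm (p B)) B (c B) ≠ 0 := by rw [mon_eq, if_pos (hc B hB).2]; exact one_ne_zero
    have h2 := mon_ne_zero γ h1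
    rw [hγ, wtm_pm, ← hγ, ← hS] at h2
    omega
  have key : ∀ g : ℤ, (univ.filter fun B => good l o (cur B) ∧ gw γ (c B) = g).card ≤
      (mask K γ (g + S) * op K (imm K w (d + 1)) * mask K γ g).rank := by
    intro g
    refine card_le_rank_tri _ _ c (fun B => toLex (pot l o B)) (fun B hB => ?_)
      (fun B hB B' _ h => ?_)
    · obtain ⟨h1, h2⟩ := (mem_filter.1 hB).2
      simp only [mask, mul_diagonal, diagonal_mul, op_imm K hw, sumMon, Matrix.sum_apply]
      rw [if_pos (by rw [hgw B h1, h2]), if_pos h2, sum_eq_single (p B), mon_eq,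
        if_pos (hc B h1).2]
      · simp
      · intro p' hp' hne
        rw [mon_eq, if_neg]
        intro h3
        exact lt_irrefl _ (pot_lt (hc B h1).1 hp' (hc B h1).2 h3 hne)
      · intro h3
        exact absurd (hc B h1).1.1 h3
    · obtain ⟨h1, -⟩ := (mem_filter.1 hB).2
      simp only [mask, mul_diagonal, diagonal_mul, op_imm K hw, sumMon, Matrix.sum_apply] at h
      obtain ⟨p', hp', h3⟩ := exists_ne_zero_of_sum_ne_zero
        (right_ne_zero_of_mul (left_ne_zero_of_mul h))
      rw [mon_eq] at h3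
      have h4 : ∀ e, pm p' e + (c B e).toNat = (B' e).toNat := by
        by_contra h5
        exact h3 (if_neg h5)
      by_cases hne : p' = p B
      · left
        funext e
        have a3 := (h4 e).symm.trans (hne ▸ (hc B h1).2 e)
        revert a3
        cases B e <;> cases B' e <;> simp
      · exact Or.inr (pot_lt (hc B h1).1 hp' (hc B h1).2 h4 hne)
  unfold meas
  rw [mul_sum]
  refine le_trans (le_of_eq ?_) (sum_le_sum fun g _ => mul_le_mul_of_nonneg_left
    (mul_le_mul_of_nonneg_left (Nat.cast_le.2 (key g)) (zpow_pos hη0 _).le) (zpow_pos hη0 _).le)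
  simp only [card_filter, Nat.cast_sum, mul_sum]
  rw [sum_comm]
  refine sum_congr rfl fun B _ => ?_
  rw [sum_eq_single (gw γ (c B))]
  · by_cases h : good l o (cur B)
    · simp only [h, if_true, true_and, Nat.cast_one, mul_one]
      rw [← zpow_add₀ hη0.ne', hgw B h]
      congr 1
      ring
    · simp [h]
  · intro g _ hg
    simp [Ne.symm hg]
  · intro h
    exact absurd (mem_image_of_mem _ (mem_univ _)) h

end

end Vale.Agent.P346
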