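import Mathlib
import Vale.Agent.P346.Any1

/-! Survival of the truncated branching process. -/

namespace Vale.Agent.P346
open Finset Function

/-- the law of one bit -/
def bw (q : ℝ) (b : Bool) : ℝ := if b then q else 1 - q

lemma bw_nonneg {q : ℝ} (h0 : 0 ≤ q) (h1 : q ≤ 1) (b : Bool) : 0 ≤ bw q b := by
  unfold bw; split_ifs <;> linarith

lemma sum_prod_pi {ι C : Type} [Fintype ι] [DecidableEq ι] [Fintype C] (F : ι → C → ℝ) :
    ∑ A : ι → C, ∏ e, F e (A e) = ∏ e, ∑ a, F e a := by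
  rw [prod_univ_sum, Fintype.piFinset_univ]

lemma all_true {ι : Type} [Fintype ι] [DecidableEq ι] (q : ℝ) (T : Finset ι) :
    ∑ r : ι → Bool, (∏ i, bw q (r i)) * (if ∀ i ∈ T, r i = true then 1 else 0) = q ^ T.card := by
  have h : ∀ r : ι → Bool, (if ∀ i ∈ T, r i = true then (1 : ℝ) else 0) =
      ∏ i, if i ∈ T then (if r i = true then 1 else 0) else 1 := by
    intro r
    rw [prod_ite_mem, univ_inter, prod_boole]
    split_ifs <;> rfl
  simp only [h, ← prod_mul_distrib]
  rw [sum_prod_pi (fun i b => bw q b * if i ∈ T then (if b = true then 1 else 0) else 1)]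
  have h2 : ∀ i, ∑ b : Bool, bw q b * (if i ∈ T then (if b = true then (1 : ℝ) else 0) else 1) =
      if i ∈ T then q else 1 := by
    intro i
    split_ifs <;> simp [bw]
  simp only [h2]
  rw [prod_ite_mem, univ_inter, prod_const]

lemma sum_bw {ι : Type} [Fintype ι] [DecidableEq ι] (q : ℝ) :
    ∑ r : ι → Bool, ∏ i, bw q (r i) = 1 := by
  simpa using all_true q (∅ : Finset ι)

lemma resample {C : Type} [Fintype C] {D : ℕ} (μ : Fin D → C → ℝ) (j : Fin D)
    (hμ1 : ∑ c, μ j c = 1) (F : (Fin D → C) → C → ℝ)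
    (hF : ∀ B c c', F (update B j c) c' = F B c') :
    ∑ B : Fin D → C, (∏ i, μ i (B i)) * F B (B j) =
      ∑ B : Fin D → C, (∏ i, μ i (B i)) * ∑ c, μ j c * F B c := by
  classical
  let e : (Fin D → C) × C → (Fin D → C) × C := fun x => (update x.1 j x.2, x.1 j)
  have he : Involutive e := fun x => by simp [e]
  have hW : ∀ (B : Fin D → C) c, (∏ i, μ i (update B j c i)) * μ j (B j) =
      (∏ i, μ i (B i)) * μ j c := by
    intro B c
    rw [← mul_prod_erase univ _ (mem_univ j), ← mul_prod_erase univ (fun i => μ i (B i)) (mem_univ j),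
      update_self, prod_congr rfl fun i hi => by rw [update_of_ne (ne_of_mem_erase hi)]]
    ring
  calc _ = ∑ x : (Fin D → C) × C, (∏ i, μ i (x.1 i)) * μ j x.2 * F x.1 (x.1 j) := by
        rw [Fintype.sum_prod_type]
        refine sum_congr rfl fun B _ => ?_
        dsimp only
        rw [← sum_mul, ← mul_sum, hμ1, mul_one]
    _ = ∑ x : (Fin D → C) × C, (∏ i, μ i (x.1 i)) * μ j x.2 * F x.1 x.2 := by
        refine Fintype.sum_equiv he.toPerm _ _ fun x => ?_
        simp only [Involutive.coe_toPerm, e, hW, hF]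
    _ = _ := by
        rw [Fintype.sum_prod_type]
        simp only [mul_sum, mul_assoc]

lemma pow_le_quad {y : ℝ} (h0 : 0 ≤ y) (h1 : y ≤ 1) (R : ℕ) :
    (1 - y) ^ R ≤ 1 - R * y + R ^ 2 * y ^ 2 := by
  induction R with
  | zero => simp
  | succ R ih =>
    rw [pow_succ]
    refine le_trans (mul_le_mul_of_nonneg_right ih (by linarith)) ?_
    push_cast
    have hR : (0 : ℝ) ≤ R := Nat.cast_nonneg _
    have h2 : 0 ≤ (R : ℝ) ^ 2 * y ^ 3 := by positivity
    have h3 : 0 ≤ (R + 1 : ℝ) * y ^ 2 := by positivity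
    nlinarith

lemma sum_block {w : ℕ} (l b : ℕ) (hb : b + l ≤ w) (f : ℕ → ℝ) :
    ∑ v : Fin w, (if b ≤ v ∧ (v : ℕ) < b + l then f v else 0) = ∑ t ∈ range l, f (b + t) := by
  rw [Fin.sum_univ_eq_sum_range (fun k => if b ≤ k ∧ k < b + l then f k else 0) w, ← sum_filter]
  have : (range w).filter (fun k => b ≤ k ∧ k < b + l) = Ico b (b + l) := by
    ext k
    simp only [mem_filter, mem_range, mem_Ico]
    omega
  rw [this, sum_Ico_eq_sum_range, Nat.add_sub_cancel_left]

lemma card_kids {w : ℕ} (l b : ℕ) (r : Fin w → Bool) :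
    ((kids l b r).card : ℝ) = ∑ v : Fin w, if b ≤ v ∧ (v : ℕ) < b + l then
      (if ∀ v' ∈ univ.filter (fun v' : Fin w => b ≤ v' ∧ v' ≤ v), r v' = true then 1 else 0)
      else 0 := by
  rw [kids, card_filter, Nat.cast_sum]
  refine sum_congr rfl fun v _ => ?_
  simp only [mem_filter, mem_univ, true_and, and_imp, ite_and]
  split_ifs <;> simp

lemma row_bound {w : ℕ} (l b : ℕ) (hb : b + l ≤ w) {q y : ℝ} (h0 : 0 ≤ q) (h1 : q ≤ 1)
    (hy0 : 0 ≤ y) (hy1 : y ≤ 1) :
    ∑ r : Fin w → Bool, (∏ i, bw q (r i)) * (1 - y) ^ (kids l b r).card ≤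
      1 - y * (1 - l * y) * ∑ t ∈ range l, q ^ (t + 1) := by
  have hR : ∀ r : Fin w → Bool, ((kids l b r).card : ℝ) ≤ l := by
    intro r
    rw [card_kids]
    have := sum_block l b hb (fun _ => 1)
    simp only [sum_const, card_range, nsmul_eq_mul, mul_one] at this
    rw [← this]
    refine sum_le_sum fun v _ => ?_
    split_ifs <;> simp
  have hE : ∑ r : Fin w → Bool, (∏ i, bw q (r i)) * ((kids l b r).card : ℝ) =
      ∑ t ∈ range l, q ^ (t + 1) := by
    simp only [card_kids, mul_sum]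
    rw [sum_comm]
    have := sum_block l b hb (fun k => q ^ (k + 1 - b))
    rw [show ∑ t ∈ range l, q ^ (t + 1) = ∑ t ∈ range l, q ^ (b + t + 1 - b) from
      sum_congr rfl fun t _ => by congr 1; omega, ← this]
    refine sum_congr rfl fun v _ => ?_
    split_ifs with h
    · have e1 : univ.filter (fun v' : Fin w => b ≤ v' ∧ v' ≤ v) = Icc ⟨b, by omega⟩ v := by
        ext v'
        rw [mem_filter, mem_Icc, Fin.le_def (a := ⟨b, _⟩)]
        exact and_iff_right (mem_univ _)
      have e2 := all_true q (univ.filter (fun v' : Fin w => b ≤ v' ∧ v' ≤ v))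
      conv_rhs at e2 => rw [e1, Fin.card_Icc]
      convert e2
    · simp
  rw [← hE, mul_sum]
  refine le_trans ?_ (le_of_eq (congrArg₂ _ (sum_bw (ι := Fin w) q) rfl))
  rw [← sum_sub_distrib]
  refine sum_le_sum fun r _ => ?_
  have h2 : 0 ≤ ∏ i, bw q (r i) := prod_nonneg fun i _ => bw_nonneg h0 h1 _
  have h3 := pow_le_quad hy0 hy1 (kids l b r).card
  have h4 := hR r
  have h5 : (0 : ℝ) ≤ (kids l b r).card := Nat.cast_nonneg _
  generalize ((kids l b r).card : ℝ) = R at h3 h4 h5 ⊢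
  have h6 : R ^ 2 * y ^ 2 ≤ R * l * y ^ 2 :=
    mul_le_mul_of_nonneg_right (by nlinarith) (by positivity)
  have h7 : (1 - y) ^ (kids l b r).card ≤ 1 - y * (1 - l * y) * R := by nlinarith
  calc _ ≤ (∏ i, bw q (r i)) * (1 - y * (1 - l * y) * R) := mul_le_mul_of_nonneg_left h7 h2
    _ = _ := by ring

lemma prod_idx {w : ℕ} (V : Finset (Fin w)) (cap : ℕ) (x : ℝ) :
    ∏ u ∈ V, (if idx V u < cap then x else 1) = x ^ min V.card cap := by
  rw [← prod_coe_sort V, ← V.equivFin.symm.prod_comp]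
  have : ∀ i : Fin V.card, idx V (V.equivFin.symm i) = i := fun i => by
    simp [idx]
  simp only [this]
  rw [Fin.prod_univ_eq_prod_range (fun k => if k < cap then x else 1), ← prod_filter, prod_const]
  congr 1
  have : (range V.card).filter (fun k => k < cap) = range (min V.card cap) := by
    ext k
    simp
  rw [this, card_range]

lemma card_nextG {w : ℕ} (l : ℕ) (V : Finset (Fin w)) (c : Fin w → Fin w → Bool) :
    (nextG l V c).card = ∑ u ∈ V, (kids l (idx V u * l) (c u)).card := by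
  refine card_biUnion fun u hu u' hu' hne => ?_
  refine disjoint_left.2 fun v h1 h2 => hne ?_
  simp only [kids, mem_filter] at h1 h2
  have h3 : idx V u = idx V u' := by
    have a1 : idx V u * l < (idx V u' + 1) * l := by rw [add_mul]; omega
    have a2 : idx V u' * l < (idx V u + 1) * l := by rw [add_mul]; omega
    have b1 := Nat.lt_of_mul_lt_mul_right a1
    have b2 := Nat.lt_of_mul_lt_mul_right a2
    omega
  simp only [idx, dif_pos (mem_coe.1 hu), dif_pos (mem_coe.1 hu')] at h3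
  simpa using V.equivFin.injective (Fin.ext h3)

lemma conc_pow {t y : ℝ} (h0 : 0 ≤ t) (h1 : t ≤ 1) (hy1 : y ≤ 1) (a : ℕ) :
    t * (1 - (1 - y) ^ a) ≤ 1 - (1 - t * y) ^ a := by
  have := (convexOn_pow a).2 (show (1 - y) ∈ Set.Ici (0 : ℝ) by simp; linarith)
    (show (1 : ℝ) ∈ Set.Ici (0 : ℝ) by simp) h0 (show 0 ≤ 1 - t by linarith) (by ring)
  simp only [smul_eq_mul, one_pow, mul_one] at this
  rw [show t * (1 - y) + (1 - t) = 1 - t * y by ring] at this
  linarith

/-- one step of the process -/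
lemma step_bound {w : ℕ} (l cap : ℕ) (hcap : cap * l ≤ w) {ω y y' ε : ℝ} (hω : 0 < ω)
    (hy : y = ω * y') (hy0 : 0 ≤ y') (hy1 : y ≤ 1) (hy1' : y' ≤ 1) (hε : ε ≤ 1)
    (h1 : l * y' ≤ ε) (h2 : (ω / (1 + ω)) ^ l ≤ ε) (h3 : (1 - y') ^ cap ≤ ε)
    (V : Finset (Fin w)) :
    (1 - ε) ^ 3 * (1 - (1 - y) ^ min V.card cap) ≤
      ∑ c : Fin w → Fin w → Bool, (∏ u, ∏ v, bw (ω / (1 + ω)) (c u v)) *
        (1 - (1 - y') ^ min (nextG l V c).card cap) := by
  set q := ω / (1 + ω) with hq
  have hq0 : 0 ≤ q := by positivity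
  have hq1 : q ≤ 1 := by rw [hq, div_le_one (by linarith)]; linarith
  have hμ0 : ∀ c : Fin w → Fin w → Bool, 0 ≤ ∏ u, ∏ v, bw q (c u v) := fun c =>
    prod_nonneg fun u _ => prod_nonneg fun v _ => bw_nonneg hq0 hq1 _
  have hμ1 : ∑ c : Fin w → Fin w → Bool, ∏ u, ∏ v, bw q (c u v) = 1 := by
    rw [sum_prod_pi (fun _ (r : Fin w → Bool) => ∏ v, bw q (r v))]
    simp [sum_bw]
  have hs0 : 0 ≤ 1 - y' := by linarith
  have hs1 : 1 - y' ≤ 1 := by linarith
  have hε0 : 0 ≤ ε := le_trans (by positivity) h1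
  have hyy : 0 ≤ y := by rw [hy]; positivity
  have hgeo : ∑ t ∈ range l, q ^ (t + 1) = ω * (1 - q ^ l) := by
    have e1 : 1 - q = 1 / (1 + ω) := by rw [hq]; field_simp; ring
    have e2 := mul_neg_geom_sum q l
    simp only [pow_succ, ← sum_mul]
    rw [← e2, e1, hq]
    field_simp
  set t := (1 - ε) ^ 2 with ht
  have ht0 : 0 ≤ t := by positivity
  have ht1 : t ≤ 1 := pow_le_one₀ (by linarith) (by linarith)
  have hrow : ∀ u, ∑ r : Fin w → Bool, (∏ v, bw q (r v)) *
      (if u ∈ V then (1 - y') ^ (kids l (idx V u * l) r).card else 1) ≤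
      if u ∈ V then (if idx V u < cap then 1 - t * y else 1) else 1 := by
    intro u
    split_ifs with hu hi
    · refine le_trans (row_bound l _ (le_trans ?_ hcap) hq0 hq1 hy0 hy1') ?_
      · rw [← Nat.succ_mul]; exact Nat.mul_le_mul_right _ hi
      · rw [hgeo, hy, ht]
        have a1 : (1 - ε) ^ 2 ≤ (1 - l * y') * (1 - q ^ l) := by
          rw [sq]
          exact mul_le_mul (by linarith) (by linarith) (by linarith) (by linarith)
        have a2 := mul_le_mul_of_nonneg_right a1 (show 0 ≤ ω * y' by positivity)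
        linarith
    · conv_rhs => rw [← sum_bw (ι := Fin w) q]
      refine sum_le_sum fun r _ => mul_le_of_le_one_right
        (prod_nonneg fun v _ => bw_nonneg hq0 hq1 _) (pow_le_one₀ hs0 hs1)
    · simp [sum_bw]
  have hmain : ∑ c : Fin w → Fin w → Bool, (∏ u, ∏ v, bw q (c u v)) *
      (1 - y') ^ (nextG l V c).card ≤ (1 - t * y) ^ min V.card cap := by
    have e1 : ∀ c : Fin w → Fin w → Bool, (1 - y') ^ (nextG l V c).card =
        ∏ u, if u ∈ V then (1 - y') ^ (kids l (idx V u * l) (c u)).card else 1 := by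
      intro c
      rw [prod_ite_mem, univ_inter, card_nextG, prod_pow_eq_pow_sum]
    simp only [e1, ← prod_mul_distrib]
    rw [sum_prod_pi (fun u (r : Fin w → Bool) => (∏ v, bw q (r v)) *
      (if u ∈ V then (1 - y') ^ (kids l (idx V u * l) r).card else 1)), ← prod_idx,
      ← univ_inter V, ← prod_ite_mem, univ_inter]
    refine prod_le_prod (fun u _ => sum_nonneg fun r _ => mul_nonneg
      (prod_nonneg fun v _ => bw_nonneg hq0 hq1 _) ?_) fun u _ => hrow u
    split_ifs <;> positivity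
  have hpt : ∀ a : ℕ, (1 - ε) * (1 - (1 - y') ^ a) ≤ 1 - (1 - y') ^ min a cap := by
    intro a
    have b1 : (1 - y') ^ a ≤ 1 := pow_le_one₀ hs0 hs1
    have b2 : 0 ≤ (1 - y') ^ a := by positivity
    rcases le_total a cap with h | h
    · rw [min_eq_left h]; nlinarith
    · rw [min_eq_right h]; nlinarith
  calc _ = (1 - ε) * (t * (1 - (1 - y) ^ min V.card cap)) := by rw [ht]; ring
    _ ≤ (1 - ε) * (1 - (1 - t * y) ^ min V.card cap) :=
        mul_le_mul_of_nonneg_left (conc_pow ht0 ht1 hy1 _) (by linarith)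
    _ ≤ (1 - ε) * (∑ c : Fin w → Fin w → Bool, ∏ u, ∏ v, bw q (c u v) -
        ∑ c : Fin w → Fin w → Bool, (∏ u, ∏ v, bw q (c u v)) * (1 - y') ^ (nextG l V c).card) := by
        rw [hμ1]
        exact mul_le_mul_of_nonneg_left (by linarith) (by linarith)
    _ ≤ _ := by
        rw [← sum_sub_distrib, mul_sum]
        refine sum_le_sum fun c _ => ?_
        have := mul_le_mul_of_nonneg_left (hpt (nextG l V c).card) (hμ0 c)
        linarith

end Vale.Agent.P346
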