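import Mathlib
import Vale.Agent.P346.Lower

namespace Vale.Agent.P346
open Real

lemma asym_b1 {s : ℝ} {τ N : ℕ} (hs : 32 ≤ s) (hN : s * s = N) (h1 : s ≤ 2 * (τ : ℝ))
    (h2 : 2 * (τ : ℝ) ≤ s + 4) :
    2 * exp (log 2 / τ) ^ (2 * N) + 2 ^ (τ + 1) ≤ exp (5 * s) := by
  have hτ0 : (0 : ℝ) < τ := by linarith
  have hlog2 : log 2 ≤ 1 := by
    have := Real.log_le_sub_one_of_pos (two_pos (α := ℝ)); linarith
  have hlog2' : 0 < log 2 := log_pos one_lt_two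
  have c1 : exp (log 2 / τ) ^ (2 * N) ≤ exp (4 * s) := by
    rw [← exp_nat_mul]
    apply exp_le_exp.2
    push_cast
    rw [← hN, mul_div_assoc', div_le_iff₀ hτ0]
    have h3 : s * s * log 2 ≤ s * s := by nlinarith
    have h4 : s * s ≤ s * (2 * τ) := mul_le_mul_of_nonneg_left h1 (by linarith)
    linarith
  have c2 : (2 : ℝ) ^ (τ + 1) ≤ exp (4 * s) := by
    calc (2 : ℝ) ^ (τ + 1) ≤ exp 1 ^ (τ + 1) :=
          pow_le_pow_left₀ (by norm_num) (by have := add_one_le_exp (1 : ℝ); linarith) _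
      _ = exp ((τ + 1 : ℕ) * 1) := by rw [← exp_nat_mul]
      _ ≤ exp (4 * s) := by apply exp_le_exp.2; push_cast; linarith
  have c3 : 3 ≤ exp s := by have := add_one_le_exp s; linarith
  have c5 : exp (5 * s) = exp s * exp (4 * s) := by rw [← exp_add]; ring_nf
  have c4 := mul_le_mul_of_nonneg_right c3 (exp_pos (4 * s)).le
  linarith

lemma asym_ne {s n : ℝ} (hs : 32 ≤ s) (hN : s * s = n) : n ≤ exp (2 * s) := by
  have hse : s ≤ exp s := by have := add_one_le_exp s; linarith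
  rw [← hN, two_mul, exp_add]
  exact mul_le_mul hse hse (by linarith) (exp_pos _).le

lemma asym_b2 {s n t : ℝ} (hs : 32 ≤ s) (hN : s * s = n) (h2 : 2 * t ≤ s + 4) :
    4 * t * n ^ 3 + 1 ≤ exp (10 * s) := by
  have hn : 1000 ≤ n := by nlinarith
  have c1 : t ≤ n := by nlinarith
  have c0 : 1 ≤ n ^ 4 := one_le_pow₀ (by linarith)
  have h3 : 0 ≤ n ^ 3 := by positivity
  have h4 : 4 * t * n ^ 3 ≤ 4 * n * n ^ 3 :=
    mul_le_mul_of_nonneg_right (by linarith) h3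
  have h5 : 5 * n ^ 4 ≤ n * n ^ 4 := mul_le_mul_of_nonneg_right (by linarith) (by positivity)
  calc _ ≤ n ^ 5 := by nlinarith
    _ ≤ exp (2 * s) ^ 5 := pow_le_pow_left₀ (by linarith) (asym_ne hs hN) _
    _ = exp (10 * s) := by rw [← exp_nat_mul]; congr 1; push_cast; ring

lemma asym_b5 {s n : ℝ} {d : ℕ} (hs : 32 ≤ s) (hd : (d : ℝ) + 1 = n) :
    (1 + s / n) ^ d ≤ exp s := by
  have hn0 : 0 < n := by rw [← hd]; positivity
  have hs0 : 0 < s := by linarith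
  calc (1 + s / n) ^ d ≤ exp (s / n) ^ d :=
        pow_le_pow_left₀ (by positivity) (by have := add_one_le_exp (s / n); linarith) _
    _ = exp (d * (s / n)) := by rw [← exp_nat_mul]
    _ ≤ exp s := by
        apply exp_le_exp.2
        rw [mul_div_assoc', div_le_iff₀ hn0, ← hd]
        nlinarith

lemma asym_b6 {s L t : ℝ} {N : ℕ} (hs : 32 ≤ s) (hN : s * s = N) (hL : 0 ≤ L) (ht : 0 < t)
    (h2 : 2 * t ≤ s + 4) : exp (L * (s / 9)) ≤ exp (L / (16 * t)) ^ N := by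
  rw [← exp_nat_mul]
  apply exp_le_exp.2
  rw [← hN, mul_div_assoc', mul_div_assoc', div_le_div_iff₀ (by norm_num) (by positivity)]
  have h1 : 16 * t ≤ 9 * s := by linarith
  have h3 : 0 ≤ L * s := mul_nonneg hL (by linarith)
  have := mul_le_mul_of_nonneg_left h1 h3
  linarith

lemma asym_fin {s L x : ℝ} (hs : 32 ≤ s) (hL : 1710 ≤ L) (hx : 0 ≤ x)
    (h : exp (L * (s / 9)) ≤ x ^ 2 * exp (19 * s)) : exp (L * (s / 20)) ≤ x := by
  apply le_of_pow_le_pow_left₀ two_ne_zero hx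
  refine le_of_mul_le_mul_right (le_trans ?_ h) (exp_pos (19 * s))
  rw [← exp_nat_mul, ← exp_add]
  apply exp_le_exp.2
  push_cast
  nlinarith

theorem size_lower_large (K : Type*) [Field K] [CharZero K] (n : ℕ) (hn : 1710 ≤ Real.log n)
    (Γ : Circuit K (Fin n × Fin n × Fin n)) (hΓ : Γ.Homogeneous) (hout : Γ.output = imm K n n) :
    (n : ℝ) ^ (√n / 20) ≤ Γ.size := by
  have hn0 : (0 : ℝ) < n := by
    rcases Nat.eq_zero_or_pos n with h | h
    · subst h; norm_num at hn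
    · exact_mod_cast h
  have hnbig : (1711 : ℝ) ≤ n := by
    have := Real.log_le_sub_one_of_pos hn0
    linarith
  obtain ⟨d, rfl⟩ : ∃ d, n = d + 1 := ⟨n - 1, by
    have : 0 < n := by exact_mod_cast hn0
    omega⟩
  have hss : √((d + 1 : ℕ) : ℝ) * √((d + 1 : ℕ) : ℝ) = ((d + 1 : ℕ) : ℝ) :=
    Real.mul_self_sqrt hn0.le
  have hs32 : 32 ≤ √((d + 1 : ℕ) : ℝ) := Real.le_sqrt_of_sq_le (by linarith)
  have hsexp : √((d + 1 : ℕ) : ℝ) = exp (log ((d + 1 : ℕ) : ℝ) / 2) := by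
    rw [Real.sqrt_eq_rpow, Real.rpow_def_of_pos hn0]; congr 1; ring
  obtain ⟨r, hr1, hr2⟩ : ∃ r : ℕ, r * r ≤ d + 1 ∧ d + 1 < (r + 1) * (r + 1) :=
    ⟨Nat.sqrt (d + 1), Nat.sqrt_le _, Nat.lt_succ_sqrt _⟩
  have hrs : (r : ℝ) ≤ √((d + 1 : ℕ) : ℝ) := by
    apply Real.le_sqrt_of_sq_le
    rw [sq]; exact_mod_cast hr1
  have hsr : √((d + 1 : ℕ) : ℝ) ≤ r + 1 := by
    apply Real.sqrt_le_iff.2 ⟨by positivity, ?_⟩
    rw [sq]; exact_mod_cast hr2.le
  obtain ⟨τ, hτ1, hτ2⟩ : ∃ τ : ℕ, r + 3 ≤ 2 * τ ∧ 2 * τ ≤ r + 4 := ⟨r / 2 + 2, by omega, by omega⟩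
  have hdτ : ((d + 1 : ℕ) : ℤ) ≤ τ * (4 * τ - 2) := by
    have h1 : (r : ℤ) + 3 ≤ 2 * τ := by exact_mod_cast hτ1
    have h2 : ((d + 1 : ℕ) : ℤ) < (r + 1) * (r + 1) := by exact_mod_cast hr2
    have h3 : (0 : ℤ) ≤ r := Nat.cast_nonneg _
    nlinarith
  have hn' : (d : ℝ) + 1 = ((d + 1 : ℕ) : ℝ) := by push_cast; rfl
  rw [Real.rpow_def_of_pos hn0]
  have hexpL := exp_log hn0
  generalize log ((d + 1 : ℕ) : ℝ) = L at *
  generalize √((d + 1 : ℕ) : ℝ) = s at *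
  have hτ1' : s ≤ 2 * (τ : ℝ) := by
    have : (r : ℝ) + 3 ≤ 2 * τ := by exact_mod_cast hτ1
    linarith
  have hτ2' : 2 * (τ : ℝ) ≤ s + 4 := by
    have : 2 * (τ : ℝ) ≤ r + 4 := by exact_mod_cast hτ2
    linarith
  have hτ0 : (0 : ℝ) < τ := by linarith
  have hL0 : 0 ≤ L := by linarith
  have hη : 1 ≤ exp (L / (16 * τ)) := one_le_exp (by positivity)
  have hκ1 : 1 ≤ exp (log 2 / τ) := one_le_exp (by have := log_pos one_lt_two; positivity)
  have hκ : 2 ≤ exp (log 2 / τ) ^ τ := by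
    rw [← exp_nat_mul, mul_div_cancel₀ _ hτ0.ne', exp_log two_pos]
  have key := size_lower K d τ (by omega) hη hκ1 hκ hdτ Γ hΓ hout
  have hθ : exp (L / (16 * τ)) ^ (8 * τ) = s := by
    rw [← exp_nat_mul, hsexp]; congr 1; push_cast; field_simp; ring
  rw [hθ, hn'] at key
  have b1 := asym_b1 hs32 hss hτ1' hτ2'
  have b2 := asym_b2 hs32 hss hτ2'
  have b3 : exp (L / (16 * τ)) ^ (4 * τ) ≤ exp (2 * s) := by
    refine le_trans ?_ (asym_ne hs32 hss)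
    rw [← exp_nat_mul, ← hexpL]
    apply exp_le_exp.2
    push_cast
    have : 4 * (τ : ℝ) * (L / (16 * τ)) = L / 4 := by field_simp; ring
    rw [this]; linarith
  have b4 : 1 + s ≤ exp s := by have := add_one_le_exp s; linarith
  have b5 := asym_b5 hs32 hn'
  have b6 := asym_b6 hs32 hss hL0 hτ0 hτ2'
  have hs0 : 0 < s := by linarith
  refine asym_fin hs32 hn (Nat.cast_nonneg _) (le_trans b6 (le_trans key ?_))
  have : exp (19 * s) = exp (5 * s) * exp (10 * s) * exp (2 * s) * exp s * exp s := by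
    simp only [← exp_add]; ring_nf
  rw [this]
  simp only [← mul_assoc]
  gcongr

end Vale.Agent.P346
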