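import Mathlib
import Vale.Agent.P346.Any2
import Vale.Agent.P346.Asym

/-! The lower bound over an arbitrary field. -/

namespace Vale.Agent.P346
open Finset Function

open Classical in
lemma good_prob {w : ℕ} (o : Fin w) (d l cap : ℕ) (hcap : cap * l ≤ w) (hc1 : 1 ≤ cap)
    (ω y : ℕ → ℝ) {ε : ℝ} (hω : ∀ j, 0 < ω j) (hy : ∀ j, y j = ω j * y (j + 1))
    (hy0 : ∀ j, 0 ≤ y j) (hy1 : ∀ j, y j ≤ 1) (hε : ε ≤ 1) (h1 : ∀ j, l * y j ≤ ε)
    (h2 : ∀ j, (ω j / (1 + ω j)) ^ l ≤ ε) (h3 : ∀ j, (1 - y j) ^ cap ≤ ε) :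
    ω d / (1 + ω d) * ((1 - ε) ^ (3 * d) * y 0) ≤
      ∑ B : Fin (d + 1) → Fin w → Fin w → Bool,
        (∏ i : Fin (d + 1), ∏ u, ∏ v, bw (ω i / (1 + ω i)) (B i u v)) *
          (if good l o B then 1 else 0) := by
  let μ : Fin (d + 1) → (Fin w → Fin w → Bool) → ℝ := fun i c =>
    ∏ u, ∏ v, bw (ω i / (1 + ω i)) (c u v)
  have hq0 : ∀ j, 0 ≤ ω j / (1 + ω j) := fun j => by have := hω j; positivity
  have hq1 : ∀ j, ω j / (1 + ω j) ≤ 1 := fun j => by
    have := hω j; rw [div_le_one (by linarith)]; linarith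
  have hμ0 : ∀ i c, 0 ≤ μ i c := fun i c =>
    prod_nonneg fun u _ => prod_nonneg fun v _ => bw_nonneg (hq0 _) (hq1 _) _
  have hμ1 : ∀ i, ∑ c, μ i c = 1 := fun i => by
    rw [sum_prod_pi (fun _ (r : Fin w → Bool) => ∏ v, bw (ω i / (1 + ω i)) (r v))]
    simp [sum_bw]
  have hW0 : ∀ B : Fin (d + 1) → Fin w → Fin w → Bool, 0 ≤ ∏ i, μ i (B i) := fun B =>
    prod_nonneg fun i _ => hμ0 i _
  have hW1 : ∑ B : Fin (d + 1) → Fin w → Fin w → Bool, ∏ i, μ i (B i) = 1 := by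
    rw [sum_prod_pi μ]; simp [hμ1]
  have hupd : ∀ (B : Fin (d + 1) → Fin w → Fin w → Bool) (j : Fin (d + 1)) c,
      gen l o (update B j c) j = gen l o B j := fun B j c =>
    gen_congr l o _ _ _ fun i hi => update_of_ne (fun h => by rw [h] at hi; omega) _ _
  have hG : ∀ j, j ≤ d → (1 - ε) ^ (3 * j) * y 0 ≤ ∑ B : Fin (d + 1) → Fin w → Fin w → Bool,
      (∏ i, μ i (B i)) * (1 - (1 - y j) ^ min (gen l o B j).card cap) := by
    intro j
    induction j with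
    | zero =>
      intro _
      simp only [gen, card_singleton, min_eq_left hc1, ← sum_mul, hW1]
      simp
    | succ j ih =>
      intro hj
      have hjd : j < d + 1 := by omega
      have e1 := resample μ ⟨j, hjd⟩ (hμ1 _)
        (fun B c => 1 - (1 - y (j + 1)) ^ min (nextG l (gen l o B j) c).card cap)
        (fun B c c' => by rw [show gen l o (update B ⟨j, hjd⟩ c) j = _ from hupd B ⟨j, hjd⟩ c])
      simp only [gen, dif_pos hjd]
      rw [e1]
      calc _ = (1 - ε) ^ 3 * ((1 - ε) ^ (3 * j) * y 0) := by ring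
        _ ≤ _ := mul_le_mul_of_nonneg_left (ih (by omega)) (pow_nonneg (by linarith) _)
        _ ≤ _ := by
          rw [mul_sum]
          refine sum_le_sum fun B _ => ?_
          rw [mul_left_comm]
          exact mul_le_mul_of_nonneg_left (step_bound l cap hcap (hω j) (hy j) (hy0 _) (hy1 _)
            (hy1 _) hε (h1 _) (h2 j) (h3 _) _) (hW0 B)
  have e1 := resample μ (Fin.last d) (hμ1 _)
    (fun B c => if ∃ u ∈ gen l o B d, c u o = true then (1 : ℝ) else 0)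
    (fun B c c' => by
      rw [show gen l o (update B (Fin.last d) c) d = gen l o B d from hupd B (Fin.last d) c])
  refine le_trans ?_ (le_of_eq (e1.symm.trans (sum_congr rfl fun B _ => by
    simp only [good, μ]; congr)))
  refine le_trans (mul_le_mul_of_nonneg_left (hG d le_rfl) (hq0 d)) ?_
  rw [mul_sum]
  refine sum_le_sum fun B _ => ?_
  rw [mul_left_comm]
  refine mul_le_mul_of_nonneg_left ?_ (hW0 B)
  rcases (gen l o B d).eq_empty_or_nonempty with h | ⟨u₀, hu₀⟩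
  · simp [h]
  · have a1 : ∑ c, μ (Fin.last d) c * (if c u₀ o = true then 1 else 0) = ω d / (1 + ω d) := by
      have b1 : ∀ c : Fin w → Fin w → Bool, (if c u₀ o = true then (1 : ℝ) else 0) =
          ∏ u, if u = u₀ then (if c u o = true then 1 else 0) else 1 := fun c => by simp
      simp only [b1, μ, ← prod_mul_distrib]
      rw [sum_prod_pi (fun u (r : Fin w → Bool) => (∏ v, bw _ (r v)) *
        if u = u₀ then (if r o = true then 1 else 0) else 1), prod_eq_single u₀]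
      · simpa using all_true (ω d / (1 + ω d)) {o}
      · intro u _ hu
        simp [hu, sum_bw]
      · simp
    have a2 : 0 ≤ (1 - y d) ^ min (gen l o B d).card cap := pow_nonneg (by linarith [hy1 d]) _
    calc _ ≤ ω d / (1 + ω d) := mul_le_of_le_one_right (hq0 d) (by linarith)
      _ ≤ _ := by
        rw [← a1]
        refine sum_le_sum fun c _ => mul_le_mul_of_nonneg_left ?_ (hμ0 _ c)
        by_cases hc : c u₀ o = true
        · rw [if_pos hc, if_pos ⟨u₀, hu₀, hc⟩]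
        · rw [if_neg hc]
          split_ifs <;> norm_num

theorem meas_imm_any (K : Type*) [Field K] {w : ℕ} (hw : 0 < w) (d τ l cap : ℕ)
    (hcap : cap * l ≤ w) (hc1 : 1 ≤ cap) (hl : 1 ≤ l) {η θ y ε : ℝ} (hη : 1 ≤ η)
    (hθ : θ = η ^ (8 * τ)) (hy0 : 0 ≤ y) (hε : ε ≤ 1) (h1 : l * (y * θ) ≤ ε)
    (h2 : (θ / (1 + θ)) ^ l ≤ ε) (h3 : (1 - y / θ) ^ cap ≤ ε) :
    (1 - ε) ^ (3 * d) * y * partZ (lw (Fin w) (d + 1) τ) η ≤
      meas (lw (Fin w) (d + 1) τ) η (pref τ (d + 1)) (imm K w (d + 1)) * (θ * (1 + θ)) := by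
  classical
  have hη0 : 0 < η := by linarith
  have hθ1 : 1 ≤ θ := hθ ▸ one_le_pow₀ hη
  have hθ0 : 0 < θ := by linarith
  have hθz : θ = η ^ (8 * (τ : ℤ)) := by rw [hθ, ← zpow_natCast]; push_cast; rfl
  have hup : ∀ z : ℤ, z ≤ 2 * τ → η ^ (4 * z) ≤ θ := fun z hz => by
    rw [hθz]; exact zpow_le_zpow_right₀ hη (by omega)
  have hlo : ∀ z : ℤ, -(2 * τ) ≤ z → θ⁻¹ ≤ η ^ (4 * z) := fun z hz => by
    rw [hθz, ← zpow_neg]; exact zpow_le_zpow_right₀ hη (by omega)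
  let ω : ℕ → ℝ := fun j => η ^ (4 * gam τ j)
  let Y : ℕ → ℝ := fun j => y * η ^ (4 * -pref τ j)
  have hω : ∀ j, 0 < ω j := fun j => zpow_pos hη0 _
  have hωθ : ∀ j, θ⁻¹ ≤ ω j ∧ ω j ≤ θ := fun j =>
    ⟨hlo _ (by rcases gam_cases τ j with h | h <;> omega),
      hup _ (by
        have := pref_bound τ (j + 1)
        have := pref_bound τ j
        unfold gam; simp only [pref] at *; split_ifs at * <;> omega)⟩
  have hY : ∀ j, y / θ ≤ Y j ∧ Y j ≤ y * θ := fun j =>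
    ⟨mul_le_mul_of_nonneg_left (hlo _ (by have := pref_bound τ j; omega)) hy0,
      mul_le_mul_of_nonneg_left (hup _ (by have := pref_bound τ j; omega)) hy0⟩
  have hyθ : y * θ ≤ 1 := by
    have : (1 : ℝ) ≤ l := by exact_mod_cast hl
    nlinarith [mul_nonneg hy0 hθ0.le]
  have hp := good_prob (⟨0, hw⟩ : Fin w) d l cap hcap hc1 ω Y hω
    (fun j => by
      simp only [ω, Y]
      rw [mul_left_comm, ← zpow_add₀ hη0.ne']
      congr 2
      simp only [pref, gam]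
      ring)
    (fun j => mul_nonneg hy0 (zpow_pos hη0 _).le) (fun j => (hY j).2.trans hyθ) hε
    (fun j => le_trans (mul_le_mul_of_nonneg_left (hY j).2 (Nat.cast_nonneg _)) h1)
    (fun j => le_trans (pow_le_pow_left₀ (by have := hω j; positivity) (by
      have := hω j
      rw [div_le_div_iff₀ (by linarith) (by linarith)]
      linarith [(hωθ j).2]) _) h2)
    (fun j => le_trans (pow_le_pow_left₀ (by linarith [(hY j).2]) (by linarith [(hY j).1]) _) h3)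
  have hm := meas_good K hw d τ l hη
  set γ := lw (Fin w) (d + 1) τ with hγ
  have hZ0 : 0 < partZ γ η := partZ_pos hη
  let e : (Fin (d + 1) × Fin w × Fin w → Bool) ≃ (Fin (d + 1) → Fin w → Fin w → Bool) :=
    ⟨cur, fun B x => B x.1 x.2.1 x.2.2, fun _ => rfl, fun _ => rfl⟩
  have e1 : ∑ B, (if good l ⟨0, hw⟩ (cur B) then η ^ (4 * gw γ B) else 0) =
      partZ γ η * ∑ B : Fin (d + 1) → Fin w → Fin w → Bool,
        (∏ i : Fin (d + 1), ∏ u, ∏ v, bw (ω i / (1 + ω i)) (B i u v)) *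
          (if good l ⟨0, hw⟩ B then 1 else 0) := by
    rw [mul_sum]
    refine Fintype.sum_equiv e _ _ fun B => ?_
    have : η ^ (4 * gw γ B) = partZ γ η *
        ∏ i : Fin (d + 1), ∏ u, ∏ v, bw (ω i / (1 + ω i)) (cur B i u v) := by
      rw [weight_prod γ hη0, partZ_eq γ hη0]
      simp only [Fintype.prod_prod_type, ← prod_mul_distrib]
      refine prod_congr rfl fun i _ => prod_congr rfl fun u _ => prod_congr rfl fun v _ => ?_
      have h0 := hω i
      change ω i ^ (B (i, u, v)).toNat = (1 + ω i) * bw _ (B (i, u, v))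
      cases B (i, u, v) <;> simp only [bw, Bool.toNat_false, Bool.toNat_true, pow_zero, pow_one,
        Bool.false_eq_true, if_false, if_true] <;> field_simp
      ring
    rw [this]
    change _ = _ * ((∏ i : Fin (d + 1), ∏ u, ∏ v, bw (ω i / (1 + ω i)) (cur B i u v)) *
      if good l ⟨0, hw⟩ (cur B) then 1 else 0)
    split_ifs <;> simp
  rw [e1] at hm
  have hμ0 : 0 ≤ meas γ η (pref τ (d + 1)) (imm K w (d + 1)) :=
    sum_nonneg fun g _ => by positivity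
  have hq : 1 ≤ ω d / (1 + ω d) * (1 + θ) := by
    have h0 := hω d
    have h4 := (hωθ d).1
    rw [inv_le_iff_one_le_mul₀ hθ0] at h4
    rw [div_mul_eq_mul_div, le_div_iff₀ (by linarith)]
    linarith
  have hY0 : Y 0 = y := by simp [Y, pref]
  rw [hY0] at hp
  have h5 := hup _ (pref_bound τ (d + 1)).2
  have h6 : 0 ≤ (1 - ε) ^ (3 * d) * y := mul_nonneg (pow_nonneg (by linarith) _) hy0
  calc _ ≤ (ω d / (1 + ω d) * (1 + θ)) * ((1 - ε) ^ (3 * d) * y * partZ γ η) :=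
        le_mul_of_one_le_left (by positivity) hq
    _ = partZ γ η * (ω d / (1 + ω d) * ((1 - ε) ^ (3 * d) * y)) * (1 + θ) := by ring
    _ ≤ θ * meas γ η (pref τ (d + 1)) (imm K w (d + 1)) * (1 + θ) :=
        mul_le_mul_of_nonneg_right (((mul_le_mul_of_nonneg_left hp hZ0.le).trans hm).trans
          (mul_le_mul_of_nonneg_right h5 hμ0)) (by linarith)
    _ = _ := by ring

theorem size_any (K : Type*) [Field K] (d τ l cap : ℕ) (hτ : 1 ≤ τ) {η κ θ y ε : ℝ}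
    (hη : 1 ≤ η) (hκ1 : 1 ≤ κ) (hκ : 2 ≤ κ ^ τ) (hdτ : ((d + 1 : ℕ) : ℤ) ≤ τ * (4 * τ - 2))
    (hcap : cap * l ≤ d + 1) (hc1 : 1 ≤ cap) (hl : 1 ≤ l)
    (hθ : θ = η ^ (8 * τ)) (hy0 : 0 < y) (hε : ε < 1) (h1 : l * (y * θ) ≤ ε)
    (h2 : (θ / (1 + θ)) ^ l ≤ ε) (h3 : (1 - y / θ) ^ cap ≤ ε)
    (Γ : Circuit K (Fin (d + 1) × Fin (d + 1) × Fin (d + 1))) (hΓ : Γ.Homogeneous)
    (hout : Γ.output = imm K (d + 1) (d + 1)) :
    η ^ (d + 1) * ((1 - ε) ^ (3 * d) * y) ≤ (Γ.size : ℝ) ^ 2 *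
      (2 * κ ^ (2 * (d + 1)) + 2 ^ (τ + 1)) * (4 * τ * ((d + 1 : ℕ) : ℝ) ^ 3 + 1) * η ^ (4 * τ) *
        (θ * (1 + θ)) := by
  have hη0 : 0 < η := by linarith
  have h1 := meas_imm_any K (Nat.succ_pos d) d τ l cap hcap hc1 hl hη hθ hy0.le hε.le h1 h2 h3
  set γ := lw (Fin (d + 1)) (d + 1) τ with hγ
  have hγc : ∀ e, γ e = 2 * τ ∨ γ e = -(2 * τ - 1) := fun e => gam_cases τ _
  have hZ0 : 0 < partZ γ η := partZ_pos hη
  have hθ0 : 0 < θ := by rw [hθ]; positivity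
  set n : ℝ := ((d + 1 : ℕ) : ℝ) with hn
  have hρ : 0 < (1 - ε) ^ (3 * d) * y := mul_pos (pow_pos (by linarith) _) hy0
  have hne : imm K (d + 1) (d + 1) ≠ 0 := by
    intro h
    rw [h, meas_zero, zero_mul] at h1
    linarith [mul_pos hρ hZ0]
  have h2 := meas_circuit (S := pref τ (d + 1)) hη hγc hκ1 hκ Γ hΓ
    (hout ▸ imm_homogeneous K (d + 1) (d + 1)) (hout ▸ hne) hdτ
  rw [hout] at h2
  have h3 : ((univ.image (gw γ)).card : ℝ) ≤ 4 * τ * n ^ 3 + 1 := by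
    have := card_image_gw γ τ hγc hτ
    simp only [Fintype.card_prod, Fintype.card_fin] at this
    rw [hn]
    have e : 4 * τ * ((d + 1) * ((d + 1) * (d + 1))) + 1 = 4 * τ * (d + 1) ^ 3 + 1 := by ring
    rw [e] at this
    exact_mod_cast this
  have h4 : η ^ (-(((d + 1 : ℕ) : ℤ) + 2 * pref τ (d + 1))) * η ^ (d + 1) ≤ η ^ (4 * τ) := by
    rw [← zpow_natCast η (d + 1), ← zpow_natCast η (4 * τ), ← zpow_add₀ hη0.ne']
    refine zpow_le_zpow_right₀ hη ?_
    have := pref_bound τ (d + 1)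
    push_cast
    omega
  set Z := partZ γ η
  set A := (Γ.size : ℝ) ^ 2 * (2 * κ ^ (2 * (d + 1)) + 2 ^ (τ + 1)) with hA
  have hA0 : 0 ≤ A := by positivity
  have hT0 : 0 ≤ θ * (1 + θ) := by positivity
  have h6 : (1 - ε) ^ (3 * d) * y * Z ≤ A * ((4 * τ * n ^ 3 + 1) * Z *
      η ^ (-(((d + 1 : ℕ) : ℤ) + 2 * pref τ (d + 1)))) * (θ * (1 + θ)) := by
    refine le_trans h1 (mul_le_mul_of_nonneg_right (le_trans h2 ?_) hT0)
    refine mul_le_mul_of_nonneg_left ?_ hA0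
    unfold bnd
    refine mul_le_mul_of_nonneg_right (mul_le_mul_of_nonneg_right h3 hZ0.le) (by positivity)
  have h7 : (1 - ε) ^ (3 * d) * y ≤ A * (4 * τ * n ^ 3 + 1) *
      η ^ (-(((d + 1 : ℕ) : ℤ) + 2 * pref τ (d + 1))) * (θ * (1 + θ)) := by
    refine le_of_mul_le_mul_right (le_trans h6 (le_of_eq ?_)) hZ0
    ring
  calc _ ≤ η ^ (d + 1) * _ := mul_le_mul_of_nonneg_left h7 (by positivity)
    _ = (A * (4 * τ * n ^ 3 + 1) * (θ * (1 + θ))) *
      (η ^ (-(((d + 1 : ℕ) : ℤ) + 2 * pref τ (d + 1))) * η ^ (d + 1)) := by ring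
    _ ≤ (A * (4 * τ * n ^ 3 + 1) * (θ * (1 + θ))) * η ^ (4 * τ) :=
      mul_le_mul_of_nonneg_left h4 (by positivity)
    _ = _ := by ring

end Vale.Agent.P346
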