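import Mathlib
import Vale.Agent.P346.Any3

/-! Choice of the parameters. -/

namespace Vale.Agent.P346
open Real

lemma exp_small {k x : ℝ} (hk : 1024 ≤ k) (hx : k / 2 ≤ x) : exp (-x) ≤ 1 / k ^ 8 := by
  have hk0 : 0 < k := by linarith
  have h1 : k / 32 ≤ exp (k / 32) := by have := add_one_le_exp (k / 32); linarith
  have h2 : (k / 32) ^ 16 ≤ exp x := by
    refine le_trans (pow_le_pow_left₀ (by positivity) h1 16) ?_
    rw [← exp_nat_mul]
    exact exp_le_exp.2 (by push_cast; linarith)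
  have h3 : k ^ 8 ≤ (k / 32) ^ 16 := by
    rw [show (k / 32) ^ 16 = ((k / 32) ^ 2) ^ 8 by ring]
    exact pow_le_pow_left₀ hk0.le (by nlinarith) 8
  rw [exp_neg, one_div]
  exact inv_anti₀ (by positivity) (h3.trans h2)

lemma pow_small {k t : ℝ} {m : ℕ} (hk : 1024 ≤ k) (ht : t ≤ 1) (hx : k / 2 ≤ m * t) :
    (1 - t) ^ m ≤ 1 / k ^ 8 := by
  refine le_trans ?_ (exp_small hk hx)
  rw [show -(m * t) = m * -t by ring, exp_nat_mul]
  exact pow_le_pow_left₀ (by linarith) (by have := add_one_le_exp (-t); linarith) _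

lemma loss_small {s : ℝ} {d : ℕ} (hs : 32 ≤ s) (hd : (d : ℝ) ≤ s * s) :
    exp (-(6 * s)) ≤ (1 - 1 / s) ^ (3 * d) := by
  have hs0 : 0 < s := by linarith
  have h0 : 1 / s ≤ 1 / 32 := one_div_le_one_div_of_le (by norm_num) hs
  have h0' : 0 < 1 / s := by positivity
  have h1 : exp (-(2 * (1 / s))) ≤ 1 - 1 / s := by
    rw [exp_neg, inv_le_iff_one_le_mul₀ (exp_pos _)]
    have := add_one_le_exp (2 * (1 / s))
    nlinarith
  refine le_trans ?_ (pow_le_pow_left₀ (exp_pos _).le h1 _)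
  rw [← exp_nat_mul]
  refine exp_le_exp.2 ?_
  have : (d : ℝ) * (1 / s) ≤ s := by rw [mul_one_div, div_le_iff₀ hs0]; exact hd
  push_cast
  linarith

lemma fin_small {s L x : ℝ} (hs : 0 < s) (hL : 50000 ≤ L) (hx : 0 ≤ x)
    (h : exp (L * (s / 72)) * (exp (-(6 * s)) * exp (-(2 * s))) ≤
      x ^ 2 * exp (5 * s) * exp (10 * s) * exp (2 * s) * exp (2 * s)) :
    exp (L * (s / 150)) ≤ x := by
  apply le_of_pow_le_pow_left₀ two_ne_zero hx
  refine le_of_mul_le_mul_right (le_trans ?_ (le_trans h (le_of_eq ?_))) (exp_pos (19 * s))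
  · rw [← exp_nat_mul, ← exp_add, ← exp_add, ← exp_add]
    apply exp_le_exp.2
    push_cast
    nlinarith
  · simp only [mul_assoc, ← exp_add]
    ring_nf

lemma exists_params {k : ℝ} {n : ℕ} (hk1 : 1024 ≤ k) (hn : k ^ 8 * k ^ 8 = n) :
    ∃ l cap : ℕ, cap * l ≤ n ∧ 1 ≤ cap ∧ 1 ≤ l ∧ l * (1 / (2 * k ^ 11) * k) ≤ 1 / k ^ 8 ∧
      (k / (1 + k)) ^ l ≤ 1 / k ^ 8 ∧ (1 - 1 / (2 * k ^ 11) / k) ^ cap ≤ 1 / k ^ 8 := by
  have hk0 : 0 < k := by linarith
  have hk2 : 1024 * k ≤ k ^ 2 := by nlinarith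
  obtain ⟨l, hl1, hl2⟩ : ∃ l : ℕ, k ^ 2 ≤ l ∧ (l : ℝ) ≤ 2 * k ^ 2 :=
    ⟨⌈k ^ 2⌉₊, Nat.le_ceil _, by have := Nat.ceil_lt_add_one (sq_nonneg k); linarith⟩
  obtain ⟨cap, hc1, hc2⟩ : ∃ c : ℕ, k ^ 13 ≤ c ∧ (c : ℝ) ≤ 2 * k ^ 13 :=
    ⟨⌈k ^ 13⌉₊, Nat.le_ceil _, by
      have := Nat.ceil_lt_add_one (pow_nonneg hk0.le 13)
      have : 1 ≤ k ^ 13 := one_le_pow₀ (by linarith)
      linarith⟩
  have hk15 : 0 < k ^ 15 := by positivity
  refine ⟨l, cap, ?_, ?_, ?_, ?_, ?_, ?_⟩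
  · have : (cap : ℝ) * l ≤ n := by
      calc (cap : ℝ) * l ≤ 2 * k ^ 13 * (2 * k ^ 2) := by gcongr
        _ = 4 * k ^ 15 := by ring
        _ ≤ k * k ^ 15 := mul_le_mul_of_nonneg_right (by linarith) hk15.le
        _ = _ := by rw [← hn]; ring
    exact_mod_cast this
  · have : (1 : ℝ) ≤ cap := le_trans (one_le_pow₀ (by linarith)) hc1
    exact_mod_cast this
  · have : (1 : ℝ) ≤ l := le_trans (one_le_pow₀ (by linarith)) hl1
    exact_mod_cast this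
  · refine le_trans (mul_le_mul_of_nonneg_right hl2 (by positivity)) (le_of_eq ?_)
    field_simp
  · rw [show k / (1 + k) = 1 - 1 / (1 + k) by field_simp; ring]
    refine pow_small hk1 (by rw [div_le_one (by linarith)]; linarith) ?_
    rw [mul_one_div, le_div_iff₀ (by linarith)]
    nlinarith
  · have e : 1 / (2 * k ^ 11) / k = 1 / (2 * k ^ 12) := by field_simp
    have e1 : 1 ≤ k ^ 12 := one_le_pow₀ (by linarith)
    rw [e]
    refine pow_small hk1 (by rw [div_le_one (by linarith)]; linarith) ?_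
    rw [mul_one_div, le_div_iff₀ (by linarith)]
    refine le_trans (le_of_eq ?_) hc1
    ring

theorem size_any_large (K : Type*) [Field K] (n : ℕ) (hn : 50000 ≤ Real.log n)
    (Γ : Circuit K (Fin n × Fin n × Fin n)) (hΓ : Γ.Homogeneous) (hout : Γ.output = imm K n n) :
    (n : ℝ) ^ (√n / 150) ≤ Γ.size := by
  have hn0 : (0 : ℝ) < n := by
    rcases Nat.eq_zero_or_pos n with h | h
    · subst h; norm_num at hn
    · exact_mod_cast h
  have hnbig : (50001 : ℝ) ≤ n := by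
    have := Real.log_le_sub_one_of_pos hn0
    linarith
  obtain ⟨d, rfl⟩ : ∃ d, n = d + 1 := ⟨n - 1, by
    have : 0 < n := by exact_mod_cast hn0
    omega⟩
  have hss : √((d + 1 : ℕ) : ℝ) * √((d + 1 : ℕ) : ℝ) = ((d + 1 : ℕ) : ℝ) :=
    Real.mul_self_sqrt hn0.le
  have hs32 : 32 ≤ √((d + 1 : ℕ) : ℝ) := Real.le_sqrt_of_sq_le (by linarith)
  have hsexp : √((d + 1 : ℕ) : ℝ) = exp (log ((d + 1 : ℕ) : ℝ) / 2) := by
    rw [Real.sqrt_eq_rpow, Real.rpow_def_of_pos hn0]; congr 1; ring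
  obtain ⟨r, hr1, hr2⟩ : ∃ r : ℕ, r * r ≤ d + 1 ∧ d + 1 < (r + 1) * (r + 1) :=
    ⟨Nat.sqrt (d + 1), Nat.sqrt_le _, Nat.lt_succ_sqrt _⟩
  have hrs : (r : ℝ) ≤ √((d + 1 : ℕ) : ℝ) := by
    apply Real.le_sqrt_of_sq_le
    rw [sq]; exact_mod_cast hr1
  have hsr : √((d + 1 : ℕ) : ℝ) ≤ r + 1 := by
    apply Real.sqrt_le_iff.2 ⟨by positivity, ?_⟩
    rw [sq]; exact_mod_cast hr2.le
  obtain ⟨τ, hτ1, hτ2⟩ : ∃ τ : ℕ, r + 3 ≤ 2 * τ ∧ 2 * τ ≤ r + 4 := ⟨r / 2 + 2, by omega, by omega⟩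
  have hdτ : ((d + 1 : ℕ) : ℤ) ≤ τ * (4 * τ - 2) := by
    have h1 : (r : ℤ) + 3 ≤ 2 * τ := by exact_mod_cast hτ1
    have h2 : ((d + 1 : ℕ) : ℤ) < (r + 1) * (r + 1) := by exact_mod_cast hr2
    have h3 : (0 : ℤ) ≤ r := Nat.cast_nonneg _
    nlinarith
  have hd : (d : ℝ) ≤ ((d + 1 : ℕ) : ℝ) := by push_cast; linarith
  rw [Real.rpow_def_of_pos hn0]
  have hexpL := exp_log hn0
  generalize log ((d + 1 : ℕ) : ℝ) = L at *
  generalize √((d + 1 : ℕ) : ℝ) = s at *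
  have hτ1' : s ≤ 2 * (τ : ℝ) := by
    have : (r : ℝ) + 3 ≤ 2 * τ := by exact_mod_cast hτ1
    linarith
  have hτ2' : 2 * (τ : ℝ) ≤ s + 4 := by
    have : 2 * (τ : ℝ) ≤ r + 4 := by exact_mod_cast hτ2
    linarith
  have hτ0 : (0 : ℝ) < τ := by linarith
  have hL0 : 0 ≤ L := by linarith
  have hs0 : 0 < s := by linarith
  have hη : 1 ≤ exp (L / (128 * τ)) := one_le_exp (by positivity)
  have hκ1 : 1 ≤ exp (log 2 / τ) := one_le_exp (by have := log_pos one_lt_two; positivity)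
  have hκ : 2 ≤ exp (log 2 / τ) ^ τ := by
    rw [← exp_nat_mul, mul_div_cancel₀ _ hτ0.ne', exp_log two_pos]
  obtain ⟨k, hk⟩ : ∃ k, k = exp (L / 16) := ⟨_, rfl⟩
  have hθ : k = exp (L / (128 * τ)) ^ (8 * τ) := by
    rw [← exp_nat_mul, hk]; congr 1; push_cast; field_simp; ring
  have hk1 : 1024 ≤ k := by have := add_one_le_exp (L / 16); linarith
  have hk0 : 0 < k := by linarith
  have hks : s = k ^ 8 := by rw [hk, ← exp_nat_mul, hsexp]; congr 1; push_cast; ring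
  obtain ⟨l, cap, hcap, hc0, hl0, p1, p2, p3⟩ := exists_params hk1 (hks ▸ hss)
  rw [← hks] at p1 p2 p3
  have key := size_any K d τ l cap (y := 1 / (2 * k ^ 11)) (ε := 1 / s) (by omega) hη hκ1 hκ hdτ
    hcap hc0 hl0 hθ (by positivity) (by rw [div_lt_one hs0]; linarith) p1 p2 p3 Γ hΓ hout
  have b0 := asym_ne hs32 hss
  have b1 := asym_b1 hs32 hss hτ1' hτ2'
  have b2 := asym_b2 hs32 hss hτ2'
  have b3 : exp (L / (128 * τ)) ^ (4 * τ) ≤ exp (2 * s) := by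
    refine le_trans ?_ b0
    rw [← exp_nat_mul, ← hexpL]
    apply exp_le_exp.2
    push_cast
    have : 4 * (τ : ℝ) * (L / (128 * τ)) = L / 32 := by field_simp; ring
    rw [this]; linarith
  have b7 : 2 * k ^ 11 ≤ exp (2 * s) := by
    refine le_trans ?_ b0
    have e1 : 2 ≤ k ^ 5 := le_trans (by linarith) (le_self_pow₀ (by linarith) (by norm_num))
    calc 2 * k ^ 11 ≤ k ^ 5 * k ^ 11 := mul_le_mul_of_nonneg_right e1 (by positivity)
      _ = _ := by rw [← hss, hks]; ring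
  have b4 : k * (1 + k) ≤ exp (2 * s) := by
    refine le_trans ?_ b7
    have : k ^ 2 ≤ k ^ 11 := pow_le_pow_right₀ (by linarith) (by norm_num)
    nlinarith
  have b5 := loss_small hs32 (hd.trans hss.ge)
  have b6 : exp (L * (s / 72)) ≤ exp (L / (128 * τ)) ^ (d + 1) := by
    rw [← exp_nat_mul]
    apply exp_le_exp.2
    rw [← hss, mul_div_assoc', mul_div_assoc', div_le_div_iff₀ (by norm_num) (by positivity)]
    have h1 : 128 * (τ : ℝ) ≤ 72 * s := by linarith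
    have := mul_le_mul_of_nonneg_left h1 (mul_nonneg hL0 hs0.le)
    linarith
  have b8 : exp (-(2 * s)) ≤ 1 / (2 * k ^ 11) := by
    rw [exp_neg, one_div]
    exact inv_anti₀ (by positivity) b7
  have fin : exp (L * (s / 72)) * (exp (-(6 * s)) * exp (-(2 * s))) ≤
      (Γ.size : ℝ) ^ 2 * exp (5 * s) * exp (10 * s) * exp (2 * s) * exp (2 * s) := by
    refine le_trans ?_ (le_trans key ?_)
    · have : 0 ≤ (1 - 1 / s) ^ (3 * d) := le_trans (exp_pos _).le b5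
      gcongr
    · gcongr
  exact fin_small hs0 hn (Nat.cast_nonneg _) fin

end Vale.Agent.P346
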