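import Mathlib
import Vale.Agent.P346.Defs
import Vale.Agent.P346.Paths

namespace Vale.Agent.P346
open Matrix Finset MvPolynomial

lemma exists_circuit {K : Type*} [Field K] {σ : Type} (L0 L2 L3 L4 : Type) [Fintype L0]
    [Fintype L2] [Fintype L3] [Fintype L4] (leaf : L0 → σ ⊕ K) (in2 : L2 → Multiset L0)
    (in3 : L3 → Finset L2) (in4 : L4 → Multiset L3) (in5 : Finset L4) (d3 : L3 → ℕ) (d5 : ℕ)
    (h3 : ∀ g, ∀ i ∈ in3 g,
      ((in2 i).map fun l => Sum.elim (fun _ => 1) (fun _ => 0) (leaf l)).sum = d3 g)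
    (h5 : ∀ i ∈ in5, ((in4 i).map d3).sum = d5) :
    ∃ Γ : Circuit K σ, Γ.Homogeneous ∧
      Γ.output = ∑ i ∈ in5, ((in4 i).map fun g => ∑ u ∈ in3 g,
        ((in2 u).map fun l => (Sum.elim X C (leaf l) : MvPolynomial σ K)).prod).prod ∧
      Γ.size = 2 * Fintype.card L0 + Fintype.card L2 + Fintype.card L3 + Fintype.card L4 + 1 := by
  let e0 := Fintype.equivFin L0
  let e2 := Fintype.equivFin L2
  let e3 := Fintype.equivFin L3
  let e4 := Fintype.equivFin L4
  refine ⟨⟨Fintype.card L0, Fintype.card L0, Fintype.card L2, Fintype.card L3, Fintype.card L4,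
    fun i => leaf (e0.symm i), fun g => {g}, fun _ _ => 1, fun g => (in2 (e2.symm g)).map e0,
    fun g => (in3 (e3.symm g)).map e2.toEmbedding, fun _ _ => 1,
    fun g => (in4 (e4.symm g)).map e3, in5.map e4.toEmbedding, fun _ => 1⟩, ?_, ?_, ?_⟩
  · refine ⟨fun g => Sum.elim (fun _ => 1) (fun _ => 0) (leaf (e0.symm g)),
      fun g => d3 (e3.symm g), d5, ?_, ?_, ?_⟩
    · intro g i hi
      rw [mem_singleton.1 hi]; rfl
    · intro g i hi
      obtain ⟨u, hu, rfl⟩ := mem_map.1 hi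
      have := h3 _ u hu
      simpa using this
    · intro i hi
      obtain ⟨u, hu, rfl⟩ := mem_map.1 hi
      rw [← h5 u hu]
      simp
  · simp [Circuit.output, Circuit.val4, Circuit.val3, Circuit.val2, Circuit.val1, Circuit.val0,
      Function.comp_def]
  · simp only [Circuit.size]; ring

theorem exists_small_circuit (K : Type*) [Field K] (n : ℕ) (hn : 0 < n) (t : ℕ) (ht : n ≤ t * t) :
    ∃ Γ : Circuit K (Fin n × Fin n × Fin n), Γ.Homogeneous ∧ Γ.output = imm K n n ∧
      Γ.size = 2 * (n ^ 3 + 2) + t * n ^ (t + 1) + t * n ^ 2 + n ^ (t + 1) + 1 := by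
  let o : Fin n := ⟨0, hn⟩
  let leaf : (Fin n × Fin n × Fin n) ⊕ Bool → (Fin n × Fin n × Fin n) ⊕ K :=
    Sum.elim Sum.inl fun b => Sum.inr (if b then 1 else 0)
  let lab : ℕ → Fin n → Fin n → (Fin n × Fin n × Fin n) ⊕ Bool := fun j u v =>
    if h : j < n then Sum.inl (⟨j, h⟩, u, v) else Sum.inr (decide (u = v))
  let M : ℕ → Matrix (Fin n) (Fin n) (MvPolynomial (Fin n × Fin n × Fin n) K) := fun j =>
    if h : j < n then Matrix.of fun u v => X (⟨j, h⟩, u, v) else 1
  have hM : ∀ j u v, Sum.elim X C (leaf (lab j u v)) = M j u v := by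
    intro j u v
    by_cases h : j < n
    · simp [leaf, lab, M, h]
    · by_cases huv : u = v <;> simp [leaf, lab, M, h, huv, one_apply]
  have hD : ∀ j u v, Sum.elim (fun _ => 1) (fun _ => 0) (leaf (lab j u v)) =
      if j < n then 1 else 0 := by
    intro j u v
    by_cases h : j < n <;> simp [leaf, lab, h]
  obtain ⟨Γ, h1, h2, h3⟩ := exists_circuit (K := K) ((Fin n × Fin n × Fin n) ⊕ Bool)
    (Fin t × (Fin (t + 1) → Fin n)) (Fin t × Fin n × Fin n) (Fin (t + 1) → Fin n) leaf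
    (fun x => (univ : Finset (Fin t)).val.map fun i : Fin t =>
      lab (x.1.val * t + i.val) (x.2 i.castSucc) (x.2 i.succ))
    (fun g => {g.1} ×ˢ paths (Fin n) t g.2.1 g.2.2)
    (fun q => (univ : Finset (Fin t)).val.map fun b => (b, q b.castSucc, q b.succ))
    (paths (Fin n) t o o)
    (fun g => ∑ i : Fin t, if g.1 * t + i < n then 1 else 0)
    (∑ b : Fin t, ∑ i : Fin t, if b * t + i < n then 1 else 0)
    (by
      intro g x hx
      rw [mem_product, mem_singleton] at hx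
      rw [Multiset.map_map, ← hx.1]
      simp only [Function.comp_def, hD]
      rfl)
    (by
      intro q _
      rw [Multiset.map_map]
      rfl)
  refine ⟨Γ, h1, ?_, ?_⟩
  · rw [h2]
    have e1 : imm K n n = prodM M n o o := by
      rw [← pathSum]
      unfold imm paths
      refine sum_congr ?_ fun p _ => prod_congr rfl fun j _ => ?_
      · ext p
        simp [Fin.ext_iff, o]
      · simp [M]
    have e2 : prodM M (t * t) = prodM M n := by
      obtain ⟨k, hk⟩ := Nat.exists_eq_add_of_le ht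
      rw [hk, prodM_add, prodM_one (fun i => M (n + i)) k fun i _ => by simp [M], Matrix.mul_one]
    rw [e1, ← e2, prodM_blocks, ← pathSum]
    refine sum_congr rfl fun q _ => ?_
    rw [Multiset.map_map]
    change ∏ b : Fin t, _ = _
    refine prod_congr rfl fun b _ => ?_
    rw [← pathSum]
    simp only [Function.comp_apply, sum_product, sum_singleton, Multiset.map_map, hM]
    rfl
  · rw [h3]
    simp only [Fintype.card_sum, Fintype.card_prod, Fintype.card_fin, Fintype.card_bool,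
      Fintype.card_fun]
    ring

theorem exists_small_circuit' (K : Type*) [Field K] (n : ℕ) (hn : 3 ≤ n) :
    ∃ Γ : Circuit K (Fin n × Fin n × Fin n), Γ.Homogeneous ∧ Γ.output = imm K n n ∧
      (Γ.size : ℝ) ≤ (n : ℝ) ^ (√n + 4) := by
  obtain ⟨r, hr1, hr2⟩ : ∃ r : ℕ, r * r ≤ n ∧ n < (r + 1) * (r + 1) :=
    ⟨Nat.sqrt n, Nat.sqrt_le _, Nat.lt_succ_sqrt _⟩
  obtain ⟨Γ, h1, h2, h3⟩ := exists_small_circuit K n (by omega) (r + 1) hr2.le
  refine ⟨Γ, h1, h2, ?_⟩
  have hr0 : 1 ≤ r := by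
    by_contra h
    have : r = 0 := by omega
    subst this; omega
  have hrn : r + 1 ≤ n := by nlinarith
  have h4 : Γ.size ≤ n ^ (r + 4) := by
    rw [h3]
    have a1 : n ^ 3 ≤ n ^ (r + 2) := Nat.pow_le_pow_right (by omega) (by omega)
    have a2 : (r + 1) * n ^ (r + 1 + 1) ≤ n * n ^ (r + 2) := Nat.mul_le_mul_right _ hrn
    have a3 : (r + 1) * n ^ 2 ≤ n ^ 3 := by
      rw [pow_succ' n 2]; exact Nat.mul_le_mul_right _ hrn
    have a4 : 5 ≤ n ^ 3 := le_trans (by norm_num) (Nat.pow_le_pow_left hn 3)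
    have a5 : n ^ (r + 4) = n * (n * n ^ (r + 2)) := by ring
    have a6 : 3 * n ^ (r + 2) ≤ n * n ^ (r + 2) := Nat.mul_le_mul_right _ hn
    have a7 : 3 * (n * n ^ (r + 2)) ≤ n * (n * n ^ (r + 2)) := Nat.mul_le_mul_right _ hn
    have a8 : n ^ (r + 1 + 1) = n ^ (r + 2) := rfl
    omega
  have hrs : (r : ℝ) ≤ √n := by
    apply Real.le_sqrt_of_sq_le
    rw [sq]; exact_mod_cast hr1
  calc (Γ.size : ℝ) ≤ (n : ℝ) ^ (r + 4) := by exact_mod_cast h4
    _ = (n : ℝ) ^ ((r + 4 : ℕ) : ℝ) := (Real.rpow_natCast _ _).symm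
    _ ≤ _ := Real.rpow_le_rpow_of_exponent_le (by exact_mod_cast (by omega : 1 ≤ n))
        (by push_cast; linarith)

end Vale.Agent.P346
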